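import Vale.Agent.P216.D239.GlueE
import Vale.Agent.P216.H126.CovUnion4
import Vale.Agent.P216.H215.MonoCovMain
import Vale.Agent.P216.H774D.MainE2
import Vale.Agent.P216.H977C.OmD
import Vale.Agent.P216.D337.Mid1
import Vale.Agent.P216.H994.EtaNeF
import Vale.Agent.P216.E2L.OpN
import Vale.Agent.P216.H285.PowK
import Vale.Agent.P216.H941D.Ow4
import Vale.Agent.P216.D773.Rat
import Vale.Agent.P216.H934D.BaseLow
import Vale.Agent.P216.D246.DimMono
import Vale.Agent.P216.D311.Bridge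

/-!
# P216-D, [GLUE]: the theorem on simply connected manifolds with monogenic rational cohomology
-/

set_option linter.all false

open Set Topology Bundle Manifold BoundedContinuousFunction
open scoped ContDiff

namespace Vale.Agent.P216.D239

open Vale.Agent.P216.PS Vale.Agent.P216.MV337 Vale.Agent.P216.Sl
open Vale.Agent.P216.B64 (OmegaOut OmegaOutC)
open Vale.Agent.P216.H133C (pw)
open Vale.Agent.P216.H774D (pwr)
open Vale.Agent.P216.H893D (OmegaPwrC OmegaPwrE OmegaPwrO)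
open Vale.Agent.P216.H934D (BaseK)
open Vale.Agent.P216.E2L (OpN)
open Vale.Agent.P216.H977C (Fld ThomK LowK MidK)

/-- The class of fields: not of characteristic two, `H^*(M; k) = k[ξ] / (ξ ^ (h + 1))`. -/
def KB (M : Type) [MetricSpace M] (d h : ℕ) : Fld := fun k _ =>
  (2 : k) ≠ 0 ∧ Nonempty (BaseK k M d h)

section

variable {E : Type} [NormedAddCommGroup E] [NormedSpace ℝ E] [FiniteDimensional ℝ E]
  {M : Type} [MetricSpace M] [CompactSpace M] [ChartedSpace E M] [SimplyConnectedSpace M]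
  {d h : ℕ} {ρ : ℝ}

/-- A space with a class of positive degree is not a point. -/
theorem nontrivial_of_baseK {k : Type} [Field k] (hd : 1 ≤ d) (hh : 1 ≤ h) (K : BaseK k M d h) :
    Nontrivial M := by
  by_contra hM
  rw [not_nontrivial_iff_subsingleton] at hM
  refine K.ne 1 hh ⟨fun _ => 0, fun _ _ => rfl, 1, one_pos, fun l hl _ => ?_⟩
  rw [PS.dl_zero_fun]
  have h1 : K.ξ (l.take (d + 1)) = 0 := by
    refine K.nξ _ fun hc => ?_
    match l, hl, hc with
    | a :: b :: l, hl, hc =>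
      obtain ⟨e, rfl⟩ : ∃ e, d = e + 1 := ⟨d - 1, by omega⟩
      rw [List.take_succ_cons, List.take_succ_cons, List.isChain_cons_cons] at hc
      exact hc.1 (Subsingleton.elim _ _)
    | [a], hl, hc =>
      simp at hl
      omega
    | [], hl, hc => simp at hl
  show K.ξ (l.take (d + 1)) * _ = 0
  rw [h1, zero_mul]

include M in
theorem finrank_pos (hM : Nontrivial M) : 1 ≤ Module.finrank ℝ E := by
  by_contra hc
  have h0 : Module.finrank ℝ E = 0 := by omega
  have hs : Subsingleton E := Module.finrank_zero_iff.1 h0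
  have hd : DiscreteTopology M := by
    refine discreteTopology_iff_isOpen_singleton.2 fun x => ?_
    have : (chartAt E x).source = {x} := by
      ext y
      constructor
      · intro hy
        exact (chartAt E x).injOn hy (mem_chart_source E x) (Subsingleton.elim _ _)
      · rintro rfl
        exact mem_chart_source E y
    rw [← this]
    exact (chartAt E x).open_source
  exact not_subsingleton M PreconnectedSpace.trivial_of_discrete

include E in
theorem thomK_KB (hd : 1 ≤ d) (hh : 1 ≤ h) (hn : Module.finrank ℝ E = d * h) :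
    ThomK (KB M d h) M (d * h) := by
  intro k _ hk ρ₁ hρ₁
  obtain ⟨h2, ⟨K⟩⟩ := hk
  obtain ⟨τ, hτ⟩ := D246.exists_tau_mfd (E := E) h2 hn (Nat.mul_pos hd hh)
    (w := pw K.ξ d h) (H934D.pw_cocL K.hε K.cξ h) (K.ne h le_rfl) hρ₁
  refine ⟨τ, fun y hy => K.ne h le_rfl ?_⟩
  exact H934D.exL_congr (H934D.exL_add hy (H934D.exL_smul (-1) (hτ y))) fun l _ => by ring

theorem lowK_KB (hρ : 0 < ρ) (hU : LS.UniqSeg M ρ) (hd : 1 ≤ d) (hh : 1 ≤ h) :
    ∃ B, 0 ≤ B ∧ LowK (KB M d h) M (d - 1) B :=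
  H934D.lowK_of_base (KB M d h) hρ hU hd hh fun k _ hk => hk.2

end

/-- **[MID]**, `h ≥ 2`. -/
def GMid : Prop :=
  ∀ {E : Type} [NormedAddCommGroup E] [NormedSpace ℝ E] [FiniteDimensional ℝ E]
    {M : Type} [MetricSpace M] [CompactSpace M] [ChartedSpace E M] [SimplyConnectedSpace M]
    [Nontrivial M] {d h : ℕ} {ρ : ℝ}, 0 < ρ → LS.UniqSeg M ρ → 4 ≤ d → Even d → 2 ≤ h →
    Module.finrank ℝ E = d * h → MidK (KB M d h) M (d * h) (d - 1) (d * (h + 1) - 2)

section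

variable {E : Type} [NormedAddCommGroup E] [NormedSpace ℝ E] [FiniteDimensional ℝ E]
  {M : Type} [MetricSpace M] [CompactSpace M] [ChartedSpace E M] [IsManifold 𝓘(ℝ, E) ∞ M]
  [RiemannianBundle (fun x : M => TangentSpace 𝓘(ℝ, E) x)]
  [IsContMDiffRiemannianBundle 𝓘(ℝ, E) ∞ E (fun x : M => TangentSpace 𝓘(ℝ, E) x)]
  [IsRiemannianManifold 𝓘(ℝ, E) M] [SimplyConnectedSpace M] {d h : ℕ} {ρ : ℝ}

include E in
theorem case_h (hρ : 0 < ρ) (hU : LS.UniqSeg M ρ)
    (hMid : MidK (KB M d h) M (d * h) (d - 1) (d * (h + 1) - 2))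
    (hd4 : 4 ≤ d) (hd : Even d) (hh : 2 ≤ h) (hn : Module.finrank ℝ E = d * h) (P0 : ℕ)
    (hP : ∀ p : ℕ, ∀ _ : Fact p.Prime, P0 < p → Nonempty (BaseK (ZMod p) M d h))
    [Nontrivial M] :
    (primeClosedGeodesicImages M).Infinite := by
  obtain ⟨B0, hB0, hL⟩ := lowK_KB (M := M) (d := d) (h := h) hρ hU (by omega) (by omega)
  have hdh : d * 2 ≤ d * h := Nat.mul_le_mul_left d hh
  have hd1 : d * (h + 1) = d * h + d := by ring
  have heN : Even (d * (h + 1)) := hd.mul_right _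
  obtain ⟨x₀, B, hB, H⟩ := H285.omegaPwrK (Kf := KB M d h) (M := M) (n := d * h) (e := d - 1)
    (D := d * (h + 1) - 2) (by omega) (by omega) (by omega)
    (hd.mul_right _) (by obtain ⟨c, hc⟩ := heN; exact ⟨c - 1, by omega⟩)
    (thomK_KB (E := E) (by omega) (by omega) hn) hB0 hL hMid
  refine H774D.main_h_E2 (E := E) (h := h) (N := d * (h + 1) - 2) hd hd4 (by omega) (by omega) P0 x₀
    fun ρ' hρ' hU' => ⟨B, hB, fun p hp h2 hpP => ?_⟩
  have h2' : (2 : ZMod p) ≠ 0 := by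
    intro h0
    have : ((2 : ℕ) : ZMod p) = 0 := by exact_mod_cast h0
    rw [ZMod.natCast_eq_zero_iff] at this
    exact absurd (Nat.le_of_dvd two_pos this) (not_le.2 h2)
  obtain ⟨K⟩ := hP p hp hpP
  obtain ⟨O, hO⟩ := H (ZMod p) ⟨h2', ⟨K⟩⟩
  refine ⟨⟨O⟩, fun m hm _ _ _ => e2_pwC (E := E) hρ hU h2' K (Nat.even_iff.1 hd) (by omega) ?_
    (by omega) O hB hm (hO.2 m hm) (E2L.opN_pwr m)⟩
  obtain ⟨c, hc⟩ := heN
  omega

include E in
theorem case_1 (hρ : 0 < ρ) (hU : LS.UniqSeg M ρ)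
    (hd4 : 4 ≤ d) (hn : Module.finrank ℝ E = d) (P0 : ℕ)
    (hP : ∀ p : ℕ, ∀ _ : Fact p.Prime, P0 < p → Nonempty (BaseK (ZMod p) M d 1)) [Nontrivial M] :
    (primeClosedGeodesicImages M).Infinite := by
  have hT := thomK_KB (E := E) (M := M) (d := d) (h := 1) (by omega) le_rfl (by rw [hn, mul_one])
  rw [mul_one] at hT
  obtain ⟨x₀, B, hB, H⟩ := H941D.omegaOnePwK (Kf := KB M d 1) (M := M) (n := d) hT
    (D337.midOneK_of hρ hU (by omega) (H994.etaNeK_of_base (h := 1) hρ hU (by omega) le_rfl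
      fun k _ hk => hk.2))
  have h2' : ∀ p : ℕ, 2 < p → (2 : ZMod p) ≠ 0 := by
    intro p h2 h0
    have : ((2 : ℕ) : ZMod p) = 0 := by exact_mod_cast h0
    rw [ZMod.natCast_eq_zero_iff] at this
    exact absurd (Nat.le_of_dvd two_pos this) (not_le.2 h2)
  rcases Nat.even_or_odd d with hd | hd
  · refine H774D.main_1e_E2 (E := E) hd hd4 P0 x₀
      fun ρ' hρ' hU' => ⟨B, hB, fun p hp h2 hpP => ?_⟩
    obtain ⟨K⟩ := hP p hp hpP
    obtain ⟨O, hO⟩ := H (ZMod p) ⟨h2' p h2, ⟨K⟩⟩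
    exact ⟨⟨O⟩, fun m hm _ _ _ => e2_pwE (E := E) hρ hU (h2' p h2) K (Nat.even_iff.1 hd) hd4
      O hB hm ((hO m hm).2 (Nat.even_iff.1 hd)) (E2L.opN_pwr m)⟩
  · refine H774D.main_1o_E2 (E := E) hd hd4 P0 x₀
      fun ρ' hρ' hU' => ⟨B, hB, fun p hp h2 hpP => ?_⟩
    obtain ⟨K⟩ := hP p hp hpP
    obtain ⟨O, hO⟩ := H (ZMod p) ⟨h2' p h2, ⟨K⟩⟩
    exact ⟨⟨O⟩, fun m hm _ _ _ => e2_pwO (E := E) hρ hU (h2' p h2) K (by omega)
      O hB hm ((hO m hm).1 (Nat.odd_iff.1 hd)) (E2L.opN_pwr m)⟩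

include E in
/-- **The theorem for one manifold**, from [MID] for it. -/
theorem infinite_of
    (hMid : ∀ ρ : ℝ, 0 < ρ → LS.UniqSeg M ρ → 2 ≤ h → Even d → Module.finrank ℝ E = d * h →
      MidK (KB M d h) M (d * h) (d - 1) (d * (h + 1) - 2))
    (hd : 4 ≤ d) (hh : 1 ≤ h) (hdh : Even d ∨ h = 1) (hQ : ASCoh.Monogenic M ℚ d h) :
    (primeClosedGeodesicImages M).Infinite := by
  obtain ⟨K⟩ := H934D.baseK_of_monogenic (by omega) hQ
  have hM : Nontrivial M := nontrivial_of_baseK (by omega) hh K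
  have hE : 1 ≤ Module.finrank ℝ E := finrank_pos (E := E) (M := M) hM
  obtain ⟨-, -, -, ρ, hρ, hU, -⟩ := D311.riem_data E M hE
  obtain ⟨P0, hP⟩ := D773.rat_prime E hE hρ hU (by omega) hQ
  have hn : Module.finrank ℝ E = d * h :=
    D246.finrank_eq_of_monogenic (k := ℚ) two_ne_zero hE (by omega) hQ
  rcases Nat.lt_or_ge 1 h with h1 | h1
  · have hd2 : Even d := hdh.resolve_right (by omega)
    exact case_h (E := E) hρ hU (hMid ρ hρ hU h1 hd2 hn) hd hd2 h1 hn P0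
      fun p hp hpP => (hP p hpP).2
  · obtain rfl : h = 1 := by omega
    exact case_1 (E := E) hρ hU hd (by rw [hn, mul_one]) P0
      fun p hp hpP => (hP p hpP).2

include E in
/-- **Rational homology spheres**: closed simply connected `M` with `H^*(M; ℚ) = H^*(S^d; ℚ)`,
`d ≥ 4`. -/
theorem infinite_one (hd : 4 ≤ d) (hQ : ASCoh.Monogenic M ℚ d 1) :
    (primeClosedGeodesicImages M).Infinite :=
  infinite_of (E := E) (fun _ _ _ h => absurd h (by omega)) hd le_rfl (Or.inr rfl) hQ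

end

theorem d3Goal_of (hMid : GMid) : H126.D3Goal := by
  intro E _ _ _ N _ _ _ _ _ _ _ _ d h hd hh hdh hQ
  obtain ⟨K⟩ := H934D.baseK_of_monogenic (by omega) hQ
  have hM : Nontrivial N := nontrivial_of_baseK (by omega) hh K
  exact infinite_of (E := E) (fun ρ hρ hU h2 he hn => hMid (E := E) hρ hU hd he h2 hn) hd hh hdh hQ

end Vale.Agent.P216.D239
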