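import Vale.Agent.P216.D239.Dc

/-!
# P216-D: covers, exactness of the rows, the spectral sequence arguments in list language
-/

set_option linter.unusedSectionVars false

open Set Finsupp

namespace Vale.Agent.P216.D239

open Vale.Agent.P216.Sl Vale.Agent.P216.PS

variable {k : Type} [Field k] {V E : Type} [PseudoMetricSpace E]

/-- `S σ` = the part over the intersection `σ`, `G` = the admissible lists of indices, `A` = the set
on which the (relative) cochains vanish. -/
structure Cov (V E : Type) where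
  G : List V → Prop
  S : List V → Set E
  A : Set E
  G_sub : ∀ {σ σ' : List V}, G σ → σ'.Sublist σ → G σ'
  G_nil : G []
  S_sub : ∀ {σ σ' : List V}, σ'.Sublist σ → S σ ⊆ S σ'

/-- `C' ≤ C`: restriction to smaller sets. -/
structure Cov.Le (C' C : Cov V E) : Prop where
  G : ∀ σ, C'.G σ → C.G σ
  S : ∀ σ, C'.S σ ⊆ C.S σ
  A : C'.A ⊆ C.A

theorem Cov.Le.refl (C : Cov V E) : C.Le C := ⟨fun _ h => h, fun _ => Subset.rfl, Subset.rfl⟩

theorem Cov.Le.trans {C C' C'' : Cov V E} (h : C.Le C') (h' : C'.Le C'') : C.Le C'' :=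
  ⟨fun σ a => h'.G σ (h.G σ a), fun σ => (h.S σ).trans (h'.S σ), h.A.trans h'.A⟩

/-- `F` vanishes in bidegree `(p, q)` on small lists. -/
def Van (C : Cov V E) (p q : ℕ) (F : List V → List E → k) : Prop :=
  ∃ ε > 0, ∀ σ, C.G σ → σ.length = p → ∀ l, l.length = q → SmL (C.S σ) ε l → F σ l = 0

/-- `F` is relative in bidegree `(p, q)`: it vanishes on the small lists of `A`. -/
def Rel (C : Cov V E) (p q : ℕ) (F : List V → List E → k) : Prop :=
  ∃ ε > 0, ∀ σ, C.G σ → σ.length = p → ∀ l, l.length = q → SmL (C.S σ ∩ C.A) ε l → F σ l = 0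

section basic

variable {C C' : Cov V E} {p q : ℕ} {F F' : List V → List E → k}

theorem Van.rel (h : Van C p q F) : Rel C p q F := by
  obtain ⟨ε, hε, h⟩ := h
  exact ⟨ε, hε, fun σ hσ hp l hl hs => h σ hσ hp l hl (hs.mono inter_subset_left le_rfl)⟩

theorem Van.le (h : Van C p q F) (hC : C'.Le C) : Van C' p q F := by
  obtain ⟨ε, hε, h⟩ := h
  exact ⟨ε, hε, fun σ hσ hp l hl hs => h σ (hC.G σ hσ) hp l hl (hs.mono (hC.S σ) le_rfl)⟩

theorem Rel.le (h : Rel C p q F) (hC : C'.Le C) : Rel C' p q F := by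
  obtain ⟨ε, hε, h⟩ := h
  exact ⟨ε, hε, fun σ hσ hp l hl hs => h σ (hC.G σ hσ) hp l hl
    (hs.mono (inter_subset_inter (hC.S σ) hC.A) le_rfl)⟩

theorem van_zero : Van C p q fun _ _ => (0 : k) := ⟨1, one_pos, fun _ _ _ _ _ _ => rfl⟩

theorem rel_zero : Rel C p q fun _ _ => (0 : k) := van_zero.rel

theorem Van.add (h : Van C p q F) (h' : Van C p q F') : Van C p q fun σ l => F σ l + F' σ l := by
  obtain ⟨ε, hε, h⟩ := h
  obtain ⟨ε', hε', h'⟩ := h'
  refine ⟨min ε ε', lt_min hε hε', fun σ hσ hp l hl hs => ?_⟩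
  show F σ l + F' σ l = 0
  rw [h σ hσ hp l hl (hs.mono subset_rfl (min_le_left _ _)),
    h' σ hσ hp l hl (hs.mono subset_rfl (min_le_right _ _)), add_zero]

theorem Rel.add (h : Rel C p q F) (h' : Rel C p q F') : Rel C p q fun σ l => F σ l + F' σ l := by
  obtain ⟨ε, hε, h⟩ := h
  obtain ⟨ε', hε', h'⟩ := h'
  refine ⟨min ε ε', lt_min hε hε', fun σ hσ hp l hl hs => ?_⟩
  show F σ l + F' σ l = 0
  rw [h σ hσ hp l hl (hs.mono subset_rfl (min_le_left _ _)),
    h' σ hσ hp l hl (hs.mono subset_rfl (min_le_right _ _)), add_zero]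

theorem Van.smul (a : k) (h : Van C p q F) : Van C p q fun σ l => a * F σ l := by
  obtain ⟨ε, hε, h⟩ := h
  exact ⟨ε, hε, fun σ hσ hp l hl hs => by
    show a * F σ l = 0
    rw [h σ hσ hp l hl hs, mul_zero]⟩

theorem Rel.smul (a : k) (h : Rel C p q F) : Rel C p q fun σ l => a * F σ l := by
  obtain ⟨ε, hε, h⟩ := h
  exact ⟨ε, hε, fun σ hσ hp l hl hs => by
    show a * F σ l = 0
    rw [h σ hσ hp l hl hs, mul_zero]⟩

theorem Van.congr (h : Van C p q F) (h' : ∀ σ l, σ.length = p → l.length = q → F' σ l = F σ l) :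
    Van C p q F' := by
  obtain ⟨ε, hε, h⟩ := h
  exact ⟨ε, hε, fun σ hσ hp l hl hs => by rw [h' σ l hp hl, h σ hσ hp l hl hs]⟩

theorem Rel.congr (h : Rel C p q F) (h' : ∀ σ l, σ.length = p → l.length = q → F' σ l = F σ l) :
    Rel C p q F' := by
  obtain ⟨ε, hε, h⟩ := h
  exact ⟨ε, hε, fun σ hσ hp l hl hs => by rw [h' σ l hp hl, h σ hσ hp l hl hs]⟩

theorem Van.sub (h : Van C p q F) (h' : Van C p q F') : Van C p q fun σ l => F σ l - F' σ l :=
  (h.add (h'.smul (-1))).congr fun _ _ _ _ => by ring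

theorem Rel.sub (h : Rel C p q F) (h' : Rel C p q F') : Rel C p q fun σ l => F σ l - F' σ l :=
  (h.add (h'.smul (-1))).congr fun _ _ _ _ => by ring

theorem Van.dh (h : Van C p q F) : Van C (p + 1) q (dh F) := by
  obtain ⟨ε, hε, h⟩ := h
  refine ⟨ε, hε, fun σ hσ hp l hl hs => ?_⟩
  by_cases h1 : σ.length ≤ 1
  · exact dh_neg h1 l
  rw [dh_pos h1]
  exact dl_zeroS fun σ' h2 h3 => h σ' (C.G_sub hσ h3) (by omega) l hl
    (hs.mono (C.S_sub h3) le_rfl)

theorem Rel.dh (h : Rel C p q F) : Rel C (p + 1) q (dh F) := by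
  obtain ⟨ε, hε, h⟩ := h
  refine ⟨ε, hε, fun σ hσ hp l hl hs => ?_⟩
  by_cases h1 : σ.length ≤ 1
  · exact dh_neg h1 l
  rw [dh_pos h1]
  exact dl_zeroS fun σ' h2 h3 => h σ' (C.G_sub hσ h3) (by omega) l hl
    (hs.mono (inter_subset_inter (C.S_sub h3) subset_rfl) le_rfl)

theorem smL_sub {X : Set E} {ε : ℝ} {l l' : List E} (h : SmL X ε l) (h' : l'.Sublist l) :
    SmL X ε l' := ⟨fun x hx => h.1 x (h'.subset hx), fun x hx y hy =>
      h.2 x (h'.subset hx) y (h'.subset hy)⟩

theorem Van.dv (h : Van C p q F) : Van C p (q + 1) (dv F) := by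
  obtain ⟨ε, hε, h⟩ := h
  refine ⟨ε, hε, fun σ hσ hp l hl hs => ?_⟩
  by_cases h1 : l.length ≤ 1
  · exact dv_neg h1 σ
  rw [dv_pos h1]
  exact dl_zeroS fun l' h2 h3 => h σ hσ hp l' (by omega) (smL_sub hs h3)

theorem Rel.dv (h : Rel C p q F) : Rel C p (q + 1) (dv F) := by
  obtain ⟨ε, hε, h⟩ := h
  refine ⟨ε, hε, fun σ hσ hp l hl hs => ?_⟩
  by_cases h1 : l.length ≤ 1
  · exact dv_neg h1 σ
  rw [dv_pos h1]
  exact dl_zeroS fun l' h2 h3 => h σ hσ hp l' (by omega) (smL_sub hs h3)

theorem van_dh_one : Van C 1 q (D239.dh F) := ⟨1, one_pos, fun _ _ hp _ _ _ => dh_neg hp.le _⟩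

theorem van_dv_one : Van C p 1 (D239.dv F) := ⟨1, one_pos, fun _ _ _ _ hl _ => dv_neg hl.le _⟩

theorem van_dh_zero : Van C 0 q (D239.dh F) :=
  ⟨1, one_pos, fun _ _ hp _ _ _ => dh_neg (by omega) _⟩

theorem van_dv_zero : Van C p 0 (D239.dv F) :=
  ⟨1, one_pos, fun _ _ _ _ hl _ => dv_neg (by omega) _⟩

end basic

/-! ### Total degree -/

/-- `F` vanishes in all bidegrees `(p, q)`, `1 ≤ p`, `1 ≤ q`, `p + q = N`, `r ≤ p`. -/
def TV (C : Cov V E) (r N : ℕ) (F : List V → List E → k) : Prop :=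
  ∀ p q, 1 ≤ p → 1 ≤ q → r ≤ p → p + q = N → Van C p q F

/-- `F` is relative in all bidegrees `(p, q)`, `1 ≤ p`, `1 ≤ q`, `p + q = N`. -/
def TR (C : Cov V E) (N : ℕ) (F : List V → List E → k) : Prop :=
  ∀ p q, 1 ≤ p → 1 ≤ q → p + q = N → Rel C p q F

section total

variable {C C' : Cov V E} {p q r N : ℕ} {F F' : List V → List E → k}

theorem TV.le (h : TV C r N F) (hC : C'.Le C) : TV C' r N F :=
  fun p q h1 h2 h3 h4 => (h p q h1 h2 h3 h4).le hC

theorem TR.le (h : TR C N F) (hC : C'.Le C) : TR C' N F :=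
  fun p q h1 h2 h4 => (h p q h1 h2 h4).le hC

theorem TV.add (h : TV C r N F) (h' : TV C r N F') : TV C r N fun σ l => F σ l + F' σ l :=
  fun p q h1 h2 h3 h4 => (h p q h1 h2 h3 h4).add (h' p q h1 h2 h3 h4)

theorem TV.sub (h : TV C r N F) (h' : TV C r N F') : TV C r N fun σ l => F σ l - F' σ l :=
  fun p q h1 h2 h3 h4 => (h p q h1 h2 h3 h4).sub (h' p q h1 h2 h3 h4)

theorem TV.smul (a : k) (h : TV C r N F) : TV C r N fun σ l => a * F σ l :=
  fun p q h1 h2 h3 h4 => (h p q h1 h2 h3 h4).smul a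

theorem TR.add (h : TR C N F) (h' : TR C N F') : TR C N fun σ l => F σ l + F' σ l :=
  fun p q h1 h2 h4 => (h p q h1 h2 h4).add (h' p q h1 h2 h4)

theorem TR.sub (h : TR C N F) (h' : TR C N F') : TR C N fun σ l => F σ l - F' σ l :=
  fun p q h1 h2 h4 => (h p q h1 h2 h4).sub (h' p q h1 h2 h4)

theorem TR.smul (a : k) (h : TR C N F) : TR C N fun σ l => a * F σ l :=
  fun p q h1 h2 h4 => (h p q h1 h2 h4).smul a

theorem TV.congr (h : TV C r N F) (h' : ∀ σ l, 1 ≤ σ.length → 1 ≤ l.length →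
    σ.length + l.length = N → F' σ l = F σ l) : TV C r N F' :=
  fun p q h1 h2 h3 h4 => (h p q h1 h2 h3 h4).congr fun σ l a b =>
    h' σ l (by omega) (by omega) (by omega)

theorem TR.congr (h : TR C N F) (h' : ∀ σ l, 1 ≤ σ.length → 1 ≤ l.length →
    σ.length + l.length = N → F' σ l = F σ l) : TR C N F' :=
  fun p q h1 h2 h4 => (h p q h1 h2 h4).congr fun σ l a b =>
    h' σ l (by omega) (by omega) (by omega)

theorem TV.tr (h : TV C 0 N F) : TR C N F := fun p q h1 h2 h4 => (h p q h1 h2 (by omega) h4).rel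

theorem tv_zero : TV C r N fun _ _ => (0 : k) := fun _ _ _ _ _ _ => van_zero

theorem tr_zero : TR C N fun _ _ => (0 : k) := fun _ _ _ _ _ => rel_zero

theorem TV.mono_r (h : TV C r N F) {r' : ℕ} (hr : r ≤ r') : TV C r' N F :=
  fun p q h1 h2 h3 h4 => h p q h1 h2 (hr.trans h3) h4

/-- `DT F` vanishes where `F` does. -/
theorem TV.DT (h : TV C r N F) : TV C (r + 1) (N + 1) (DT F) := by
  intro p q h1 h2 h3 h4
  have a1 : Van C p q (dh F) := by
    rcases Nat.lt_or_ge 1 p with hp | hp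
    · obtain ⟨p, rfl⟩ : ∃ p', p = p' + 1 := ⟨p - 1, by omega⟩
      exact (h p q (by omega) h2 (by omega) (by omega)).dh
    · obtain rfl : p = 1 := by omega
      exact van_dh_one
  have a2 : Van C p q (dv F) := by
    rcases Nat.lt_or_ge 1 q with hq | hq
    · obtain ⟨q, rfl⟩ : ∃ q', q = q' + 1 := ⟨q - 1, by omega⟩
      exact (h p q h1 (by omega) (by omega) (by omega)).dv
    · obtain rfl : q = 1 := by omega
      exact van_dv_one
  refine (a1.add (a2.smul ((-1) ^ p))).congr fun σ l hp _ => ?_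
  simp only [D239.DT, hp]

theorem TV.DT0 (h : TV C 0 N F) : TV C 0 (N + 1) (D239.DT F) := by
  intro p q h1 h2 _ h4
  exact (show TV C 1 (N + 1) (D239.DT F) from h.DT) p q h1 h2 h1 h4

theorem TR.DT (h : TR C N F) : TR C (N + 1) (D239.DT F) := by
  intro p q h1 h2 h4
  have a1 : Rel C p q (dh F) := by
    rcases Nat.lt_or_ge 1 p with hp | hp
    · obtain ⟨p, rfl⟩ : ∃ p', p = p' + 1 := ⟨p - 1, by omega⟩
      exact (h p q (by omega) h2 (by omega)).dh
    · obtain rfl : p = 1 := by omega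
      exact van_dh_one.rel
  have a2 : Rel C p q (dv F) := by
    rcases Nat.lt_or_ge 1 q with hq | hq
    · obtain ⟨q, rfl⟩ : ∃ q', q = q' + 1 := ⟨q - 1, by omega⟩
      exact (h p q h1 (by omega) (by omega)).dv
    · obtain rfl : q = 1 := by omega
      exact van_dv_one.rel
  refine (a1.add (a2.smul ((-1) ^ p))).congr fun σ l hp _ => ?_
  simp only [D239.DT, hp]

end total

/-! ### Exactness of the rows -/

/-- Data for the exactness of the rows: `lam l` is an index whose set contains the small list `l`. -/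
structure Cov.Row (C : Cov V E) where
  lam : List E → V
  ε : ℝ
  hε : 0 < ε
  row : ∀ σ l, C.G σ → l ≠ [] → SmL (C.S σ) ε l →
    (∀ x ∈ l, x ∈ C.S (lam l :: σ)) ∧
      (C.G (lam l :: σ) ∨ ∃ σ', σ = lam l :: σ' ∧ ∀ τ, ¬ C.G (lam l :: lam l :: τ))

namespace Cov.Row

variable {C : Cov V E} (R : C.Row)

open Classical in
/-- The contraction of the rows. -/
noncomputable def hop (F : List V → List E → k) (σ : List V) (l : List E) : k :=
  if C.G (R.lam l :: σ) then F (R.lam l :: σ) l else 0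

theorem hop_spec (F : List V → List E → k) {σ : List V} {l : List E} (hσ : C.G σ) (hl : l ≠ [])
    (hs : SmL (C.S σ) R.ε l) :
    dl (fun σ' => R.hop F σ' l) σ + R.hop (fun σ l => dl (fun σ' => F σ' l) σ) σ l = F σ l := by
  obtain ⟨-, h⟩ := R.row σ l hσ hl hs
  by_cases hG : C.G (R.lam l :: σ)
  · have e1 : dl (fun σ' => R.hop F σ' l) σ = dl (fun σ' => F (R.lam l :: σ') l) σ :=
      dl_congrS fun σ' _ h2 => if_pos (C.G_sub hG (h2.cons_cons _))
    rw [e1, hop, if_pos hG, dl_cons]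
    ring
  · obtain ⟨σ', rfl, h'⟩ := h.resolve_left hG
    rw [hop, if_neg hG, add_zero, dl_cons, hop, if_pos hσ,
      dl_zeroS (f := fun l' => R.hop F (R.lam l :: l') l) fun τ _ _ => if_neg (h' τ), sub_zero]

/-- The contraction is local. -/
theorem hop_zero {F : List V → List E → k} {σ : List V} {l : List E}
    (hσ : C.G σ) (hl : l ≠ []) (hs : SmL (C.S σ) R.ε l)
    (h : ∀ σ', C.G σ' → σ'.length = σ.length + 1 → (∀ x ∈ l, x ∈ C.S σ') → F σ' l = 0) :
    R.hop F σ l = 0 := by
  unfold hop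
  split_ifs with hG
  · exact h _ hG rfl (R.row σ l hσ hl hs).1
  · rfl

theorem rel_hop {p q : ℕ} (hq : 1 ≤ q) {F : List V → List E → k} (h : Rel C (p + 1) q F) :
    Rel C p q (R.hop F) := by
  obtain ⟨ε, hε, h⟩ := h
  refine ⟨min ε R.ε, lt_min hε R.hε, fun σ hσ hp l hl hs => ?_⟩
  have h0 : l ≠ [] := by
    rintro rfl
    simp at hl
    omega
  refine R.hop_zero hσ h0 (hs.mono inter_subset_left (min_le_right _ _)) fun σ' h1 h2 h3 =>
    h σ' h1 (by omega) l hl ⟨fun x hx => ⟨h3 x hx, (hs.1 x hx).2⟩, fun x hx y hy =>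
      (hs.2 x hx y hy).trans_le (min_le_left _ _)⟩

/-- the horizontal differential with the augmentation -/
noncomputable def dha (F : List V → List E → k) (σ : List V) (l : List E) : k :=
  dl (fun σ' => F σ' l) σ

theorem van_hop {p q : ℕ} (hq : 1 ≤ q) {F : List V → List E → k} (h : Van C (p + 1) q (dha F)) :
    Van C p q fun σ l => F σ l - dha (R.hop F) σ l := by
  obtain ⟨ε, hε, h⟩ := h
  refine ⟨min ε R.ε, lt_min hε R.hε, fun σ hσ hp l hl hs => ?_⟩
  have h0 : l ≠ [] := by
    rintro rfl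
    simp at hl
    omega
  have hs' := hs.mono subset_rfl (min_le_right ε R.ε)
  have h1 := R.hop_spec F hσ h0 hs'
  have h2 : R.hop (dha F) σ l = 0 := R.hop_zero hσ h0 hs' fun σ' h1 h2 h3 =>
    h σ' h1 (by omega) l hl ⟨h3, fun x hx y hy => (hs.2 x hx y hy).trans_le (min_le_left _ _)⟩
  have h3 : R.hop (fun σ l => dl (fun σ' => F σ' l) σ) σ l = 0 := h2
  rw [h3, add_zero] at h1
  show F σ l - dl (fun σ' => R.hop F σ' l) σ = 0
  rw [h1, sub_self]

end Cov.Row

/-! ### The total complex computes the cohomology of the union -/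

section assembly

variable {C : Cov V E}

/-- A cochain supported in one bidegree. -/
def spot (p q : ℕ) (w : List V → List E → k) (σ : List V) (l : List E) : k :=
  if σ.length = p ∧ l.length = q then w σ l else 0

theorem spot_pos {p q : ℕ} {w : List V → List E → k} {σ : List V} {l : List E}
    (h : σ.length = p) (h' : l.length = q) : spot p q w σ l = w σ l := if_pos ⟨h, h'⟩

theorem spot_neg {p q : ℕ} {w : List V → List E → k} {σ : List V} {l : List E}
    (h : ¬ (σ.length = p ∧ l.length = q)) : spot p q w σ l = 0 := if_neg h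

theorem tr_spot {p q N : ℕ} {w : List V → List E → k} (h : Rel C p q w) : TR C N (spot p q w) := by
  intro p' q' h1 h2 h3
  by_cases h4 : p' = p ∧ q' = q
  · obtain ⟨rfl, rfl⟩ := h4
    exact h.congr fun σ l a b => spot_pos a b
  · exact rel_zero.congr fun σ l a b => spot_neg fun h => h4 ⟨by omega, by omega⟩

/-- the horizontal part of `DT (spot p q w)` -/
theorem dh_spot {p q : ℕ} (w : List V → List E → k) {σ : List V} {l : List E}
    (h : ¬ (σ.length = p + 1 ∧ l.length = q)) : dh (spot p q w) σ l = 0 := by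
  by_cases h1 : σ.length ≤ 1
  · exact dh_neg h1 l
  rw [dh_pos h1]
  exact dl_zeroS fun σ' h2 _ => spot_neg fun h3 => h ⟨by omega, h3.2⟩

theorem dv_spot {p q : ℕ} (w : List V → List E → k) {σ : List V} {l : List E}
    (h : ¬ (σ.length = p ∧ l.length = q + 1)) : dv (spot p q w) σ l = 0 := by
  by_cases h1 : l.length ≤ 1
  · exact dv_neg h1 σ
  rw [dv_pos h1]
  exact dl_zeroS fun l' h2 _ => spot_neg fun h3 => h ⟨h3.1, by omega⟩

theorem dh_spot' {p q : ℕ} (w : List V → List E → k) {σ : List V} {l : List E}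
    (h1 : σ.length = p + 1) (h2 : l.length = q) : dh (spot p q w) σ l = dh w σ l := by
  by_cases h : σ.length ≤ 1
  · rw [dh_neg h, dh_neg h]
  rw [dh_pos h, dh_pos h]
  exact dl_congrS fun σ' h3 _ => spot_pos (by omega) h2

theorem dv_spot' {p q : ℕ} (w : List V → List E → k) {σ : List V} {l : List E}
    (h1 : σ.length = p) (h2 : l.length = q + 1) : dv (spot p q w) σ l = dv w σ l := by
  by_cases h : l.length ≤ 1
  · rw [dv_neg h, dv_neg h]
  rw [dv_pos h, dv_pos h]
  exact dl_congrS fun l' h3 _ => spot_pos h1 (by omega)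

/-- The augmentation of a cochain on the union. -/
def aug (g : List E → k) (σ : List V) (l : List E) : k := if σ.length = 1 then g l else 0

/-- cutting off the rows `≥ r` -/
def cutge (r : ℕ) (F : List V → List E → k) (σ : List V) (l : List E) : k :=
  if r ≤ σ.length then 0 else F σ l

/-- cutting off the rows `< r` -/
def cutlt (r : ℕ) (F : List V → List E → k) (σ : List V) (l : List E) : k :=
  if σ.length < r then 0 else F σ l

/-- One step of the assembly: making the row `p` zero. -/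
theorem asm_step (R : C.Row) {N p : ℕ} (hp : 2 ≤ p) (hpN : p + 1 ≤ N) {F : List V → List E → k}
    (h0 : ∀ σ l, p + 1 ≤ σ.length → F σ l = 0) (hR : TR C N F) (hD : TV C 2 (N + 1) (DT F)) :
    ∃ B F' : List V → List E → k, TR C (N - 1) B ∧ TR C N F' ∧
      (∀ σ l, p ≤ σ.length → F' σ l = 0) ∧ TV C 0 N (fun σ l => F σ l - F' σ l - DT B σ l) := by
  obtain ⟨q, hq, rfl⟩ : ∃ q, 1 ≤ q ∧ N = p + q := ⟨N - p, by omega, by omega⟩
  -- exactness of the row
  have h1 : Van C (p + 1) q (Cov.Row.dha F) := by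
    refine (hD (p + 1) q (by omega) hq (by omega) (by omega)).congr fun σ l a b => ?_
    have e1 : dv F σ l = 0 := by
      by_cases h : l.length ≤ 1
      · exact dv_neg h σ
      rw [dv_pos h]
      exact dl_zeroS fun l' _ _ => h0 σ l' (by omega)
    rw [DT, e1, mul_zero, add_zero, dh_pos (by omega)]
    rfl
  have h2 := R.van_hop hq h1
  obtain ⟨p, rfl⟩ : ∃ p', p = p' + 1 := ⟨p - 1, by omega⟩
  have hRw : Rel C p q (R.hop F) := R.rel_hop hq (hR (p + 1) q (by omega) hq rfl)
  set w := R.hop F with hw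
  have hB : TR C (p + 1 + q - 1) (spot p q w) := tr_spot hRw
  have hB1 : TR C (p + 1 + q) (DT (spot p q w)) := by
    have := hB.DT
    rwa [show p + 1 + q - 1 + 1 = p + 1 + q by omega] at this
  refine ⟨spot p q w, cutge (p + 1) (fun σ l => F σ l - DT (spot p q w) σ l), hB, ?_, ?_, ?_⟩
  · intro p' q' a b c
    by_cases h : p + 1 ≤ p'
    · exact rel_zero.congr fun σ l x _ => if_pos (by omega)
    · exact ((hR p' q' a b c).sub (hB1 p' q' a b c)).congr fun σ l x _ => if_neg (by omega)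
  · intro σ l h
    exact if_pos h
  · intro p' q' a b _ c
    rcases lt_trichotomy p' (p + 1) with h | h | h
    · refine van_zero.congr fun σ l x _ => ?_
      rw [cutge, if_neg (by omega)]
      ring
    · obtain rfl : q' = q := by omega
      subst h
      refine h2.congr fun σ l x y => ?_
      rw [cutge, if_pos (by omega), DT, dh_spot' w x y, dv_spot w (by omega), mul_zero, add_zero,
        dh_pos (by omega), sub_zero]
      rfl
    · refine van_zero.congr fun σ l x y => ?_
      rw [cutge, if_pos (by omega), DT, dh_spot w (by omega), dv_spot w (by omega), h0 σ l (by omega)]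
      ring

theorem TV.of_sub {C : Cov V E} {r N : ℕ} {F G : List V → List E → k} (h : TV C r N G)
    (h' : TV C r N fun σ l => F σ l - G σ l) : TV C r N F :=
  (h.add h').congr fun σ l _ _ _ => by ring

/-- **Assembly**: a relative total cochain whose differential vanishes in the rows `≥ 2` is a
cochain of the union plus a differential. -/
theorem asm (R : C.Row) {N : ℕ} : ∀ (m : ℕ) {F : List V → List E → k},
    (∀ σ l, m + 2 ≤ σ.length → F σ l = 0) → TR C N F → TV C 2 (N + 1) (DT F) →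
    ∃ B F' : List V → List E → k, TR C (N - 1) B ∧ TR C N F' ∧
      (∀ σ l, 2 ≤ σ.length → F' σ l = 0) ∧ TV C 0 N (fun σ l => F σ l - F' σ l - DT B σ l) := by
  intro m
  induction m with
  | zero =>
    intro F h0 hR _
    refine ⟨fun _ _ => 0, F, tr_zero, hR, fun σ l h => h0 σ l (by omega), ?_⟩
    refine tv_zero.congr fun σ l _ _ _ => ?_
    have : DT (fun _ _ => (0 : k)) σ l = 0 := by
      unfold DT dh dv
      split_ifs <;> simp [PS.dl_zero_fun]
    rw [this]
    ring
  | succ m ih =>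
    intro F h0 hR hD
    by_cases hN : m + 2 + 1 ≤ N
    · obtain ⟨B, F', hB, hF', h0', hE⟩ := asm_step R (p := m + 2) (by omega) hN
        (fun σ l h => h0 σ l (by omega)) hR hD
      have hD' : TV C 2 (N + 1) (DT F') := by
        have h1 := hE.DT0
        have h2 : TV C 2 (N + 1) (DT fun σ l => F σ l - F' σ l - DT B σ l) :=
          h1.mono_r (by omega)
        refine (hD.sub h2).congr fun σ l _ _ _ => ?_
        have h3 : DT (fun σ l => F σ l - F' σ l - DT B σ l) σ l =
            DT F σ l - DT F' σ l - DT (DT B) σ l := by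
          rw [DT_sub (fun σ l => F σ l - F' σ l) (DT B), DT_sub]
        rw [h3, DT_DT]
        ring
      obtain ⟨B', F'', hB', hF'', h0'', hE'⟩ := ih h0' hF' hD'
      refine ⟨fun σ l => B σ l + B' σ l, F'', hB.add hB', hF'', h0'', ?_⟩
      refine (hE.add hE').congr fun σ l _ _ _ => ?_
      rw [DT_add]
      ring
    · have e1 : TV C 0 N fun σ l => F σ l - cutge (m + 2) F σ l := by
        refine tv_zero.congr fun σ l a b c => ?_
        rw [cutge, if_neg (by omega), sub_self]
      have hR' : TR C N (cutge (m + 2) F) := by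
        refine hR.congr fun σ l a b c => ?_
        rw [cutge, if_neg (by omega)]
      have hD' : TV C 2 (N + 1) (DT (cutge (m + 2) F)) := by
        refine (hD.sub (e1.DT0.mono_r (by omega))).congr fun σ l _ _ _ => ?_
        rw [DT_sub]
        ring
      obtain ⟨B, F', hB, hF', h0', hE⟩ := ih (F := cutge (m + 2) F) (fun σ l h => if_pos h) hR' hD'
      refine ⟨B, F', hB, hF', h0', (e1.add hE).congr fun σ l _ _ _ => ?_⟩
      ring

/-- **Assembly**, with the cochain of the union. -/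
theorem asm' (R : C.Row) {N : ℕ} (hN : 2 ≤ N) {F : List V → List E → k} (hR : TR C N F)
    (hD : TV C 2 (N + 1) (DT F)) :
    ∃ (B : List V → List E → k) (g : List E → k), TR C (N - 1) B ∧
      (∃ ε > 0, ∀ l, l.length = N - 1 → SmL (C.S [] ∩ C.A) ε l → g l = 0) ∧
      TV C 0 N (fun σ l => F σ l - aug g σ l - DT B σ l) := by
  have e1 : TV C 0 N fun σ l => F σ l - cutge (N + 2) F σ l := by
    refine tv_zero.congr fun σ l a b c => ?_
    rw [cutge, if_neg (by omega), sub_self]
  have hR' : TR C N (cutge (N + 2) F) := by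
    refine hR.congr fun σ l a b c => ?_
    rw [cutge, if_neg (by omega)]
  have hD' : TV C 2 (N + 1) (DT (cutge (N + 2) F)) := by
    refine (hD.sub (e1.DT0.mono_r (by omega))).congr fun σ l _ _ _ => ?_
    rw [DT_sub]
    ring
  obtain ⟨B, F', hB, hF', h0', hE⟩ := asm R N (F := cutge (N + 2) F) (fun σ l h => if_pos h)
    hR' hD'
  have hDF' : TV C 2 (N + 1) (DT F') := by
    have h2 : TV C 2 (N + 1) (DT fun σ l => cutge (N + 2) F σ l - F' σ l - DT B σ l) :=
      hE.DT0.mono_r (by omega)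
    refine (hD'.sub h2).congr fun σ l _ _ _ => ?_
    have h3 : DT (fun σ l => cutge (N + 2) F σ l - F' σ l - DT B σ l) σ l =
        DT (cutge (N + 2) F) σ l - DT F' σ l - DT (DT B) σ l := by
      rw [DT_sub (fun σ l => cutge (N + 2) F σ l - F' σ l) (DT B), DT_sub]
    rw [h3, DT_DT]
    ring
  -- exactness of the augmented row `1`
  have h1 : Van C (1 + 1) (N - 1) (Cov.Row.dha F') := by
    refine (hDF' 2 (N - 1) (by omega) (by omega) le_rfl (by omega)).congr fun σ l a b => ?_
    have e1 : dv F' σ l = 0 := by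
      by_cases h : l.length ≤ 1
      · exact dv_neg h σ
      rw [dv_pos h]
      exact dl_zeroS fun l' _ _ => h0' σ l' (by omega)
    rw [DT, e1, mul_zero, add_zero, dh_pos (by omega)]
    rfl
  have h2 := R.van_hop (by omega) h1
  have hRw : Rel C 0 (N - 1) (R.hop F') :=
    R.rel_hop (by omega) (hF' 1 (N - 1) (by omega) (by omega) (by omega))
  have key : TV C 0 N fun σ l => F' σ l - aug (R.hop F' []) σ l := by
    intro p q a b _ c
    by_cases h : p = 1
    · subst h
      obtain rfl : q = N - 1 := by omega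
      refine h2.congr fun σ l x _ => ?_
      obtain ⟨v, rfl⟩ := List.length_eq_one_iff.1 x
      rw [aug, if_pos x, Cov.Row.dha, dl_one]
    · refine van_zero.congr fun σ l x _ => ?_
      rw [aug, if_neg (by omega), h0' σ l (by omega), sub_zero]
  refine ⟨B, R.hop F' [], hB, ?_, ?_⟩
  · by_cases hG : C.G []
    · obtain ⟨ε, hε, h⟩ := hRw
      exact ⟨ε, hε, fun l hl hs => h [] hG rfl l hl hs⟩
    · refine ⟨1, one_pos, fun l _ _ => ?_⟩
      rw [Cov.Row.hop, if_neg fun h => hG (C.G_sub h (List.nil_sublist _))]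
  · refine ((e1.add hE).add key).congr fun σ l _ _ _ => ?_
    ring

end assembly

end Vale.Agent.P216.D239
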