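import Vale.Agent.P216.D239.Ss
import Vale.Agent.P216.C313.Relh

/-!
# P216-D: constant coefficient systems; the vanishing of `E_2`
-/

set_option linter.unusedSectionVars false

open Set Finsupp

namespace Vale.Agent.P216.D239

open Vale.Agent.P216.Sl Vale.Agent.P216.PS Vale.Agent.P216.H140 Vale.Agent.P216.AS
open Vale.Agent.P216.H901

/-! ### The coboundary of functions on lists with values in a group -/

section dm

variable {V W W' : Type*} [AddCommGroup W] [AddCommGroup W']

/-- the coboundary, auxiliary form -/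
def dmA : List V → (List V → W) → W
  | [], _ => 0
  | v :: σ, z => z σ - dmA σ fun τ => z (v :: τ)

/-- the coboundary of a function on lists -/
def dm (z : List V → W) (σ : List V) : W := dmA σ z

theorem dm_nil (z : List V → W) : dm z [] = 0 := rfl

theorem dm_cons (z : List V → W) (v : V) (σ : List V) :
    dm z (v :: σ) = z σ - dm (fun τ => z (v :: τ)) σ := rfl

theorem dm_congr {z z' : List V → W} {σ : List V}
    (h : ∀ τ : List V, τ.length + 1 = σ.length → τ.Sublist σ → z τ = z' τ) : dm z σ = dm z' σ := by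
  induction σ generalizing z z' with
  | nil => rfl
  | cons v σ ih =>
    rw [dm_cons, dm_cons, h σ rfl (List.sublist_cons_self v σ),
      ih (z := fun l' => z (v :: l')) (z' := fun l' => z' (v :: l')) fun l' h1 h2 =>
        h (v :: l') (by rw [List.length_cons, List.length_cons, h1]) (h2.cons_cons v)]

theorem dm_map (f : W →+ W') (z : List V → W) (σ : List V) : f (dm z σ) = dm (fun τ => f (z τ)) σ := by
  induction σ generalizing z with
  | nil => rw [dm_nil, dm_nil, map_zero]
  | cons v σ ih => rw [dm_cons, dm_cons, map_sub, ih]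

theorem dm_add (z z' : List V → W) (σ : List V) :
    dm (fun τ => z τ + z' τ) σ = dm z σ + dm z' σ := by
  induction σ generalizing z z' with
  | nil => rw [dm_nil, dm_nil, dm_nil, add_zero]
  | cons v σ ih => rw [dm_cons, dm_cons, dm_cons, ih]; abel

theorem dm_smul {R : Type*} [Semiring R] [Module R W] (a : R) (z : List V → W) (σ : List V) :
    dm (fun τ => a • z τ) σ = a • dm z σ := by
  induction σ generalizing z with
  | nil => rw [dm_nil, dm_nil, smul_zero]
  | cons v σ ih => rw [dm_cons, dm_cons, ih, smul_sub]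

theorem dm_eq_dl {k : Type} [Field k] {V : Type} (z : List V → k) (σ : List V) :
    dm z σ = dl z σ := by
  induction σ generalizing z with
  | nil => rw [dm_nil, Sl.dl_nil]
  | cons v σ ih => rw [dm_cons, Sl.dl_cons, ih]

theorem dm_zero {z : List V → W} {σ : List V}
    (h : ∀ τ : List V, τ.length + 1 = σ.length → τ.Sublist σ → z τ = 0) : dm z σ = 0 := by
  rw [dm_congr (z' := fun _ => (0 : W)) h]
  have := dm_map (0 : W →+ W) z σ
  simpa using this.symm

end dm

/-! ### Classes of list cochains, total version -/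

section cl

variable {k : Type} [Field k] {E : Type} [PseudoMetricSpace E] {X A Y B : Set E} {n : ℕ}
  {f g : List E → k}

open Classical in
/-- the class of a relative list cocycle (`0` if it is not a cocycle) -/
noncomputable def cl (X A : Set E) (n : ℕ) (f : List E → k) : Hr (tr E) (on k) X A n :=
  if h : CocR X A n f then clsR (tr E) (on k) f h else 0

theorem cl_eq (h : CocR X A n f) : cl X A n f = clsR (tr E) (on k) f h := dif_pos h

theorem cl_zero_iff (h : CocR X A n f) : cl X A n f = 0 ↔ ExR X A n f := by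
  rw [cl_eq h, clsR_eq_zero]

theorem cl_add (hf : CocR X A n f) (hg : CocR X A n g) :
    cl X A n (fun l => f l + g l) = cl X A n f + cl X A n g := by
  rw [cl_eq hf, cl_eq hg, cl_eq (hf.add hg), clsR_add]

theorem cl_sub (hf : CocR X A n f) (hg : CocR X A n g) :
    cl X A n (fun l => f l - g l) = cl X A n f - cl X A n g := by
  rw [cl_eq hf, cl_eq hg, cl_eq (hf.sub hg), clsR_sub]

theorem cl_smul (c : k) (hf : CocR X A n f) :
    cl X A n (fun l => c * f l) = c • cl X A n f := by
  rw [cl_eq hf, cl_eq (hf.smul c), clsR_smul]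

theorem exists_cl (z : Hr (tr E) (on k) X A n) : ∃ f : List E → k, CocR X A n f ∧ cl X A n f = z := by
  obtain ⟨f, h, -, hz⟩ := exists_clsR z
  exact ⟨f, h, by rw [cl_eq h, hz]⟩

theorem res_cl (hY : Y ⊆ X) (hB : B ⊆ A) (hf : CocR X A n f) :
    (resR hY hB n : Hr (tr E) (on k) X A n →ₗ[k] _) (cl X A n f) = cl Y B n f := by
  rw [cl_eq hf, cl_eq (hf.mono hY hB), resR_clsR]

theorem cocR_zero : CocR X A n fun _ => (0 : k) :=
  ⟨⟨1, one_pos, fun _ _ _ => PS.dl_zero_fun _⟩, ⟨1, one_pos, fun _ _ _ => rfl⟩⟩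

theorem cl_dm {V : Type} {F : List V → List E → k} : ∀ (τ : List V),
    (∀ τ' : List V, τ'.length + 1 = τ.length → τ'.Sublist τ → CocR X A n (F τ')) →
    CocR X A n (fun l => dl (fun τ' => F τ' l) τ) ∧
      cl X A n (fun l => dl (fun τ' => F τ' l) τ) = dm (fun τ' => cl X A n (F τ')) τ := by
  intro τ
  induction τ generalizing F with
  | nil =>
    intro _
    have : (fun l => dl (fun τ' => F τ' l) []) = fun _ : List E => (0 : k) :=
      funext fun l => Sl.dl_nil _
    rw [this, dm_nil]
    refine ⟨cocR_zero, (cl_zero_iff cocR_zero).2 ?_⟩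
    exact ⟨fun _ => 0, fun _ _ => rfl, ⟨1, one_pos, fun _ _ _ => rfl⟩, 1, one_pos,
      fun _ _ _ => (PS.dl_zero_fun _).symm⟩
  | cons v τ ih =>
    intro h
    have h1 := h τ rfl (List.sublist_cons_self v τ)
    obtain ⟨h2, h3⟩ := ih (F := fun τ' => F (v :: τ')) fun τ' a b =>
      h (v :: τ') (by rw [List.length_cons, List.length_cons, a]) (b.cons_cons v)
    have e : (fun l => dl (fun τ' => F τ' l) (v :: τ)) =
        fun l => F τ l - dl (fun τ' => F (v :: τ') l) τ := funext fun l => Sl.dl_cons _ _ _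
    rw [e, dm_cons, ← h3]
    exact ⟨h1.sub h2, cl_sub h1 h2⟩

end cl

/-! ### Constant systems -/

section cs

variable {k : Type} [Field k] {V E : Type} [PseudoMetricSpace E]

/-- the group of the piece `σ` -/
abbrev HS (k : Type) [Field k] (C : Cov V E) (σ : List V) (b : ℕ) : Type :=
  Hr (tr E) (on k) (C.S σ) (C.S σ ∩ C.A) b

/-- A constant system: the cohomology of the pieces is the persistence module `W b` up to the shift
`c`, compatibly with the restrictions to smaller pieces. -/
structure CS (k : Type) [Field k] (C : ℝ → Cov V E) (W : ℕ → PM k) (c : ℝ) where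
  hc : 0 ≤ c
  le : ∀ s t, 0 < s → s ≤ t → (C s).Le (C t)
  G : ∀ s t σ, (C s).G σ → (C t).G σ
  i : ∀ (b : ℕ) (σ : List V) (s t : ℝ), HS k (C t) σ b →ₗ[k] (W b).V s
  p : ∀ (b : ℕ) (σ : List V) (s t : ℝ), (W b).V t →ₗ[k] HS k (C s) σ b
  pi : ∀ b σ s r r' t (hs : 0 < s) (h₁ : s + c ≤ r) (hr : 0 < r) (h₂ : r ≤ r') (h₃ : r' + c ≤ t)
    (hst : s ≤ t), σ ≠ [] → (C s).G σ → ∀ x : HS k (C t) σ b,
    p b σ s r ((W b).ρ r r' hr h₂ (i b σ r' t x)) =
      resR ((le s t hs hst).S σ) (inter_subset_inter ((le s t hs hst).S σ) (le s t hs hst).A) b x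
  ip : ∀ b σ s r r' t (hs : 0 < s) (h₁ : s + c ≤ r) (hr : 0 < r) (h₂ : r ≤ r') (h₃ : r' + c ≤ t)
    (hst : s ≤ t), σ ≠ [] → (C r).G σ → ∀ x : (W b).V t,
    i b σ s r (resR ((le r r' hr h₂).S σ) (inter_subset_inter ((le r r' hr h₂).S σ)
      (le r r' hr h₂).A) b (p b σ r' t x)) = (W b).ρ s t hs hst x
  i_res : ∀ b σ σ' s t, 0 < s → s + c ≤ t → σ' ≠ [] → (C t).G σ → ∀ (h : σ'.Sublist σ)
    (x : HS k (C t) σ' b), i b σ s t (resR ((C t).S_sub h)
      (inter_subset_inter ((C t).S_sub h) subset_rfl) b x) = i b σ' s t x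
  p_res : ∀ b σ σ' s t, 0 < s → s + c ≤ t → σ' ≠ [] → (C s).G σ → ∀ (h : σ'.Sublist σ)
    (x : (W b).V t), resR ((C s).S_sub h)
      (inter_subset_inter ((C s).S_sub h) subset_rfl) b (p b σ' s t x) = p b σ s t x

/-- Vanishing of the cohomology of the nerve in degree `p - 1`, with arbitrary coefficients. -/
def NZ (k : Type) [Field k] (G : List V → Prop) (p : ℕ) : Prop :=
  ∀ (W : Type) [AddCommGroup W] [Module k W] (z : List V → W),
    (∀ σ, G σ → σ.length = p + 1 → dm z σ = 0) →
    ∃ w : List V → W, ∀ σ, G σ → σ.length = p → z σ = dm w σ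

/-- The cohomology of the nerve in degree `p - 1` is generated by `χ`, with arbitrary
coefficients. -/
def NL (k : Type) [Field k] (G : List V → Prop) (p : ℕ) (χ : List V → k) : Prop :=
  ∀ (W : Type) [AddCommGroup W] [Module k W] (z : List V → W),
    (∀ σ, G σ → σ.length = p + 1 → dm z σ = 0) →
    ∃ (w₀ : W) (w : List V → W), ∀ σ, G σ → σ.length = p → z σ = χ σ • w₀ + dm w σ

/-- The class of `χ` is not zero in degree `p - 1`. -/
def NN (k : Type) [Field k] (G : List V → Prop) (p : ℕ) (χ : List V → k) : Prop :=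
  ∀ (W : Type) [AddCommGroup W] [Module k W] (w₀ : W) (w : List V → W),
    (∀ σ, G σ → σ.length = p → χ σ • w₀ = if p = 1 then 0 else dm w σ) → w₀ = 0

end cs

end Vale.Agent.P216.D239
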