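import Vale.Agent.P216.D239.Glue
import Vale.Agent.P216.H140D.MidAll

/-!
# P216-D: closed simply connected manifolds with monogenic rational cohomology, `d ≥ 4`
-/

set_option linter.all false

namespace Vale.Agent.P216.D239

theorem gmid : GMid := by
  intro E _ _ _ M _ _ _ _ _ d h ρ hρ hU hd he hh hn
  exact H140D.midK_all hρ hU (by omega) (by omega) (fun k _ hk => hk.2)

/-- **The theorem on closed simply connected Riemannian manifolds whose rational cohomology ring
is generated by one class of degree `d ≥ 4` (`d` even, or a rational homology sphere).** -/
theorem d3Goal : H126.D3Goal := @d3Goal_of @gmid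

end Vale.Agent.P216.D239
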