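import Vale.Agent.P216.H140.RCls

/-!
# P216-D: the Čech double complex of a closed cover, in list language

`F : List V → List E → k`, the entry at `(σ, l)` with `σ.length = p`, `l.length = q` has bidegree
`(p - 1, q - 1)`.
-/

open Set Finsupp

namespace Vale.Agent.P216.D239

open Vale.Agent.P216.Sl Vale.Agent.P216.PS

variable {k : Type} [Field k] {V E : Type}

/-- horizontal differential (in the indices), `0` on lists of length `≤ 1` -/
noncomputable def dh (F : List V → List E → k) (σ : List V) (l : List E) : k :=
  if σ.length ≤ 1 then 0 else dl (fun σ' => F σ' l) σ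

/-- vertical differential (in the points), `0` on lists of length `≤ 1` -/
noncomputable def dv (F : List V → List E → k) (σ : List V) (l : List E) : k :=
  if l.length ≤ 1 then 0 else dl (F σ) l

/-- total differential -/
noncomputable def DT (F : List V → List E → k) (σ : List V) (l : List E) : k :=
  dh F σ l + (-1) ^ σ.length * dv F σ l

section alg

variable {F F' : List V → List E → k} {σ : List V} {l : List E}

theorem dl_sub (f g : List E → k) (l : List E) : dl (fun l => f l - g l) l = dl f l - dl g l := by
  have h := PS.dl_add f (fun l => -g l) l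
  rw [dl_neg] at h
  simpa [sub_eq_add_neg] using h

theorem dh_add (F F' : List V → List E → k) (σ : List V) (l : List E) :
    dh (fun σ l => F σ l + F' σ l) σ l = dh F σ l + dh F' σ l := by
  unfold dh
  split_ifs
  · rw [add_zero]
  · exact PS.dl_add _ _ _

theorem dv_add (F F' : List V → List E → k) (σ : List V) (l : List E) :
    dv (fun σ l => F σ l + F' σ l) σ l = dv F σ l + dv F' σ l := by
  unfold dv
  split_ifs
  · rw [add_zero]
  · exact PS.dl_add _ _ _

theorem dh_smul (a : k) (F : List V → List E → k) (σ : List V) (l : List E) :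
    dh (fun σ l => a * F σ l) σ l = a * dh F σ l := by
  unfold dh
  split_ifs
  · rw [mul_zero]
  · exact dl_smul _ _ _

theorem dv_smul (a : k) (F : List V → List E → k) (σ : List V) (l : List E) :
    dv (fun σ l => a * F σ l) σ l = a * dv F σ l := by
  unfold dv
  split_ifs
  · rw [mul_zero]
  · exact dl_smul _ _ _

theorem dh_sub (F F' : List V → List E → k) (σ : List V) (l : List E) :
    dh (fun σ l => F σ l - F' σ l) σ l = dh F σ l - dh F' σ l := by
  unfold dh
  split_ifs
  · rw [sub_zero]
  · exact dl_sub _ _ _

theorem dv_sub (F F' : List V → List E → k) (σ : List V) (l : List E) :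
    dv (fun σ l => F σ l - F' σ l) σ l = dv F σ l - dv F' σ l := by
  unfold dv
  split_ifs
  · rw [sub_zero]
  · exact dl_sub _ _ _

theorem DT_add (F F' : List V → List E → k) (σ : List V) (l : List E) :
    DT (fun σ l => F σ l + F' σ l) σ l = DT F σ l + DT F' σ l := by
  unfold DT
  rw [dh_add, dv_add]
  ring

theorem DT_sub (F F' : List V → List E → k) (σ : List V) (l : List E) :
    DT (fun σ l => F σ l - F' σ l) σ l = DT F σ l - DT F' σ l := by
  unfold DT
  rw [dh_sub, dv_sub]
  ring

theorem DT_smul (a : k) (F : List V → List E → k) (σ : List V) (l : List E) :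
    DT (fun σ l => a * F σ l) σ l = a * DT F σ l := by
  unfold DT
  rw [dh_smul, dv_smul]
  ring

/-- `dl` in one variable commutes with `dl` in the other. -/
theorem dl_comm {α β : Type} (f : List α → List β → k) (σ : List α) (l : List β) :
    dl (fun σ' => dl (f σ') l) σ = dl (fun l' => dl (fun σ' => f σ' l') σ) l := by
  induction l generalizing f with
  | nil =>
    rw [dl_nil]
    have : (fun σ' => dl (f σ') []) = fun _ : List α => (0 : k) := by
      funext σ'
      rw [dl_nil]
    rw [this, PS.dl_zero_fun]
  | cons x l ih =>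
    rw [dl_cons]
    have : (fun σ' => dl (f σ') (x :: l)) =
        fun σ' => f σ' l - dl (fun l' => f σ' (x :: l')) l := by
      funext σ'
      rw [dl_cons]
    rw [this, dl_sub, ih]

theorem len_face {α : Type} {l l' : List α} (h : l'.length + 1 = l.length) :
    l'.length = l.length - 1 := by omega

/-- `dl f l` only depends on `f` on the faces of `l`. -/
theorem dl_congrS {α : Type} {f g : List α → k} {l : List α}
    (h : ∀ l' : List α, l'.length + 1 = l.length → l'.Sublist l → f l' = g l') :
    dl f l = dl g l := by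
  induction l generalizing f g with
  | nil => rw [dl_nil, dl_nil]
  | cons x l ih =>
    rw [dl_cons, dl_cons, h l rfl (List.sublist_cons_self x l),
      ih (f := fun l' => f (x :: l')) (g := fun l' => g (x :: l')) fun l' h1 h2 =>
        h (x :: l') (by rw [List.length_cons, List.length_cons, h1]) (h2.cons_cons x)]

theorem dl_zeroS {α : Type} {f : List α → k} {l : List α}
    (h : ∀ l' : List α, l'.length + 1 = l.length → l'.Sublist l → f l' = 0) : dl f l = 0 := by
  rw [dl_congrS (g := fun _ => (0 : k)) h, PS.dl_zero_fun]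

theorem dh_pos {F : List V → List E → k} {σ : List V} (h : ¬ σ.length ≤ 1) (l : List E) :
    dh F σ l = dl (fun σ' => F σ' l) σ := if_neg h

theorem dv_pos {F : List V → List E → k} {l : List E} (h : ¬ l.length ≤ 1) (σ : List V) :
    dv F σ l = dl (F σ) l := if_neg h

theorem dh_neg {F : List V → List E → k} {σ : List V} (h : σ.length ≤ 1) (l : List E) :
    dh F σ l = 0 := if_pos h

theorem dv_neg {F : List V → List E → k} {l : List E} (h : l.length ≤ 1) (σ : List V) :
    dv F σ l = 0 := if_pos h

theorem dv_dh (F : List V → List E → k) (σ : List V) (l : List E) :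
    dv (dh F) σ l = dh (dv F) σ l := by
  by_cases h1 : l.length ≤ 1
  · rw [dv_neg h1]
    by_cases h2 : σ.length ≤ 1
    · rw [dh_neg h2]
    · rw [dh_pos h2]
      exact (dl_zeroS fun σ' _ _ => dv_neg h1 σ').symm
  by_cases h2 : σ.length ≤ 1
  · rw [dh_neg h2, dv_pos h1]
    exact dl_zeroS fun l' _ _ => dh_neg h2 l'
  rw [dv_pos h1, dh_pos h2, show dh F σ = fun l => dl (fun σ' => F σ' l) σ from
      funext fun l => dh_pos h2 l, ← dl_comm]
  exact dl_congrS fun σ' _ _ => (dv_pos h1 σ').symm

theorem dh_dh (F : List V → List E → k) (σ : List V) (l : List E) : dh (dh F) σ l = 0 := by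
  unfold dh
  split_ifs with h
  · rfl
  · by_cases h2 : σ.length ≤ 2
    · rw [dl_congr (g := fun _ => (0 : k)) (l := σ) fun σ' hσ' _ => by
        rw [if_pos (by omega)], PS.dl_zero_fun]
    · rw [dl_congr (g := dl fun σ' => F σ' l) (l := σ) fun σ' hσ' _ => by
        rw [if_neg (by omega)], dl_dl]

theorem dv_dv (F : List V → List E → k) (σ : List V) (l : List E) : dv (dv F) σ l = 0 := by
  unfold dv
  split_ifs with h
  · rfl
  · by_cases h2 : l.length ≤ 2
    · rw [dl_congr (g := fun _ => (0 : k)) (l := l) fun l' hl' _ => by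
        rw [if_pos (by omega)], PS.dl_zero_fun]
    · rw [dl_congr (g := dl (F σ)) (l := l) fun l' hl' _ => by
        rw [if_neg (by omega)], dl_dl]

theorem dh_sign (F : List V → List E → k) (σ : List V) (l : List E) :
    dh (fun σ l => (-1) ^ σ.length * F σ l) σ l = -(-1) ^ σ.length * dh F σ l := by
  unfold dh
  split_ifs with h
  · rw [mul_zero]
  · rw [dl_congrS (g := fun σ' => ((-1) ^ (σ.length - 1)) * F σ' l) (l := σ) fun σ' hσ' _ => by
      change (-1) ^ σ'.length * F σ' l = _
      rw [len_face hσ'], dl_smul]
    obtain ⟨n, hn⟩ : ∃ n, σ.length = n + 1 := ⟨σ.length - 1, by omega⟩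
    rw [hn, Nat.add_sub_cancel, pow_succ]
    ring

theorem DT_DT (F : List V → List E → k) (σ : List V) (l : List E) : DT (DT F) σ l = 0 := by
  have h1 : dh (DT F) σ l = -(-1) ^ σ.length * dh (dv F) σ l := by
    have : DT F = fun σ l => dh F σ l + (fun σ l => (-1) ^ σ.length * dv F σ l) σ l := rfl
    rw [this, dh_add, dh_dh, dh_sign, zero_add]
  have h2 : dv (DT F) σ l = dh (dv F) σ l := by
    have : DT F = fun σ l => dh F σ l + (fun σ l => (-1) ^ σ.length * dv F σ l) σ l := rfl
    rw [this, dv_add, dv_dh]
    have h3 : dv (fun σ l => (-1) ^ σ.length * dv F σ l) σ l = (-1) ^ σ.length * dv (dv F) σ l := by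
      unfold dv
      split_ifs
      · rw [mul_zero]
      · exact dl_smul _ _ _
    rw [h3, dv_dv, mul_zero, add_zero]
  unfold DT at h1 h2 ⊢
  rw [h1, h2]
  ring

/-- congruence -/
theorem dh_congr (h : ∀ σ', σ'.length + 1 = σ.length → (∀ v ∈ σ', v ∈ σ) → F σ' l = F' σ' l) :
    dh F σ l = dh F' σ l := by
  unfold dh
  split_ifs
  · rfl
  · exact dl_congr h

theorem dv_congr (h : ∀ l', l'.length + 1 = l.length → (∀ x ∈ l', x ∈ l) → F σ l' = F' σ l') :
    dv F σ l = dv F' σ l := by
  unfold dv
  split_ifs
  · rfl
  · exact dl_congr h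

end alg

end Vale.Agent.P216.D239
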