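import Mathlib

/-!
# P216-D: finite simplicial complexes, monogenic rational cohomology, good covers
-/

open Set

namespace Vale.Agent.P216.D239

/-- A finite simplicial complex with vertex set `V`: the family of its (nonempty) simplices. -/
structure FinComplex (V : Type) where
  face : Finset V → Prop
  down : ∀ {s t : Finset V}, face s → t ⊆ s → t.Nonempty → face t
  vert : ∀ v, face {v}

namespace FinComplex

variable {V : Type} (T : FinComplex V)

/-- The geometric realization, in barycentric coordinates. -/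
def real [Fintype V] : Set (V → ℝ) :=
  {y | (∀ v, 0 ≤ y v) ∧ ∑ v, y v = 1 ∧ ∃ s, T.face s ∧ ∀ v, y v ≠ 0 ↔ v ∈ s}

/-- The lists of `q + 1` vertices (repetitions allowed) which span a simplex. -/
def Spx (q : ℕ) (l : List V) : Prop := l.length = q + 1 ∧ ∃ s, T.face s ∧ ∀ v ∈ l, v ∈ s

/-- The coboundary of a simplicial cochain: `(δ c)(v₀, …, v_q) = ∑ (-1)^i c(v₀, …, v̂_i, …, v_q)`. -/
def cob {R : Type} [Ring R] (c : List V → R) (l : List V) : R :=
  ∑ i ∈ Finset.range l.length, (-1) ^ i * c (l.eraseIdx i)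

/-- `c` is a cocycle of degree `q` (its values on the simplices of dimension `q` matter). -/
def Cocycle {R : Type} [Ring R] (q : ℕ) (c : List V → R) : Prop :=
  ∀ l, T.Spx (q + 1) l → cob c l = 0

/-- `c` is a coboundary in degree `q`. -/
def Cobound {R : Type} [Ring R] (q : ℕ) (c : List V → R) : Prop :=
  if q = 0 then ∀ l, T.Spx 0 l → c l = 0
  else ∃ b : List V → R, ∀ l, T.Spx q l → c l = cob b l

/-- The cup product of `a` of degree `p` with `b`. -/
def cup {R : Type} [Ring R] (p : ℕ) (a b : List V → R) (l : List V) : R :=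
  a (l.take (p + 1)) * b (l.drop p)

/-- The cup powers of a cochain of degree `d`. -/
def cupPow {R : Type} [Ring R] (d : ℕ) (x : List V → R) : ℕ → List V → R
  | 0 => fun _ => 1
  | j + 1 => cup d x (cupPow d x j)

/-- `H^*(T; R) = R[x] / (x^(h+1))` with `x` of degree `d`: there is a cocycle `x` of degree `d` such
that for `j ≤ h` every cocycle of degree `d j` is cohomologous to exactly one multiple of `x^j`, and
every cocycle whose degree is not of this form is a coboundary. -/
def TruncPoly (R : Type) [Ring R] (d h : ℕ) : Prop :=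
  ∃ x : List V → R, T.Cocycle d x ∧
    (∀ j ≤ h, ∀ z : List V → R, T.Cocycle (d * j) z →
      ∃! c : R, T.Cobound (d * j) fun l => z l - c * cupPow d x j l) ∧
    ∀ q, (∀ j ≤ h, q ≠ d * j) → ∀ z : List V → R, T.Cocycle q z → T.Cobound q z

end FinComplex

/-- The intersection of the sets of a cover with indices in the list `σ`. -/
def US {M V : Type} (U : V → Set M) (σ : List V) : Set M := {x | ∀ v ∈ σ, x ∈ U v}

/-- A closed cover whose nonempty intersections are contractible, with a Lebesgue number. -/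
structure GCov (M V : Type) [MetricSpace M] where
  U : V → Set M
  closed : ∀ v, IsClosed (U v)
  leb : ∃ ε > 0, ∀ l : List M, l ≠ [] → (∀ x ∈ l, ∀ y ∈ l, dist x y < ε) →
    ∃ v, ∀ x ∈ l, x ∈ U v
  ctr : ∀ σ : List V, σ ≠ [] → (US U σ).Nonempty → ∃ x₀ ∈ US U σ, ∃ H : M × ℝ → M,
    ContinuousOn H (US U σ ×ˢ Icc (0 : ℝ) 1) ∧
    (∀ x ∈ US U σ, ∀ s ∈ Icc (0 : ℝ) 1, H (x, s) ∈ US U σ) ∧
    (∀ x ∈ US U σ, H (x, 0) = x) ∧ ∀ x ∈ US U σ, H (x, 1) = x₀

/-- **[D-GC]**: the closed stars `{y | c ≤ y v}` (`c = 1 / (2 card V)`) of a finite complex. -/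
def GoalGC : Prop := ∀ (V : Type) [Fintype V] (T : FinComplex V) (M : Type) [MetricSpace M]
  [CompactSpace M] (e : M ≃ₜ T.real), ∃ K : GCov M V,
    (∀ v x, x ∈ K.U v ↔ 1 / (2 * (Fintype.card V : ℝ)) ≤ (e x : V → ℝ) v) ∧
    ∀ σ : List V, σ ≠ [] → ((US K.U σ).Nonempty ↔ ∃ s, T.face s ∧ ∀ v ∈ σ, v ∈ s)

/-- **[D-ALG]**: from the rationals to the fields in which some `N ≥ 1` is invertible, in the degrees
`≤ D` (integral matrices, clearing denominators). -/
def GoalALG : Prop := ∀ (V : Type) [Fintype V] (T : FinComplex V) (d h D : ℕ), 1 ≤ d →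
  d * h ≤ D → T.TruncPoly ℚ d h → ∃ N : ℕ, 0 < N ∧ ∀ (k : Type) [Field k], (N : k) ≠ 0 →
  ∃ x : List V → k, T.Cocycle d x ∧
    (∀ j ≤ h, ∀ z : List V → k, T.Cocycle (d * j) z →
      ∃! c : k, T.Cobound (d * j) fun l => z l - c * FinComplex.cupPow d x j l) ∧
    ∀ q ≤ D, (∀ j ≤ h, q ≠ d * j) → ∀ z : List V → k, T.Cocycle q z → T.Cobound q z

end Vale.Agent.P216.D239
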