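import Vale.Agent.P216.E2L.Lev
import Vale.Agent.P216.H893D.OmLC
import Vale.Agent.P216.H892.FibO
import Vale.Agent.P216.D907.PwI
import Vale.Agent.P216.H923E.Inst
import Vale.Agent.P216.H923E.Hx
import Vale.Agent.P216.H456.FLE
import Vale.Agent.P216.H651.StepG
import Vale.Agent.P216.H934D.Bridge

/-!
# P216-D, [GLUE] (1): the outputs of the Leray zigzag for the power maps

`fib_pwr`: the interface `E2L.Fib` for the free loops and the `m`-th power.
`e2_pwC`, `e2_pwE`, `e2_pwO`: `E2Out` in the three cases of `H774D/MainE2`.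
-/

set_option linter.all false

open Set BoundedContinuousFunction Manifold
open scoped ContDiff

namespace Vale.Agent.P216.D239

open Vale.Agent.P216.PS Vale.Agent.P216.MV337 Vale.Agent.P216.Sl
open Vale.Agent.P216.B64 (OmegaOut OmegaOutC)
open Vale.Agent.P216.H133C (pw)
open Vale.Agent.P216.H774D (pwr)
open Vale.Agent.P216.H894 (BsE BsO FsE FsO wE wO E2Out EigPw E2Lev)
open Vale.Agent.P216.H892 (OmL fib_of)
open Vale.Agent.P216.H893D (OmegaPwrC OmegaPwrE OmegaPwrO)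
open Vale.Agent.P216.H934D (BaseK exL_add exL_smul exL_congr)
open Vale.Agent.P216.E2L (BaseH OpN Fib RkA)

/-! ### The base -/

section base

variable {k M : Type} [Field k] [MetricSpace M] {d h : ℕ}

theorem rkA_of_line {p : ℕ} {g : List M → k}
    (H : ∀ c : List M → k, CocL (univ : Set M) p c → ∃ a : k, ExL (univ : Set M) p
      fun l => c l - a * g l) : RkA k (univ : Set M) p := by
  intro c c' _ hc _ hc'
  obtain ⟨a, ha⟩ := H c hc
  obtain ⟨a', ha'⟩ := H c' hc'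
  by_cases h0 : a = 0
  · refine ⟨1, 0, fun h => one_ne_zero h.1, exL_congr ha fun l _ => ?_⟩
    rw [h0]
    ring
  · refine ⟨a', -a, fun h => h0 (neg_eq_zero.1 h.2),
      exL_congr (exL_add (exL_smul a' ha) (exL_smul (-a) ha')) fun l _ => ?_⟩
    ring

theorem baseH_E (B : BaseK k M d h) : BaseH k (univ : Set M) (BsE d h) := by
  refine ⟨fun p hp c _ hc => B.zero p (fun j hj e => hp ⟨j, hj, e⟩) c hc, fun p hp => ?_⟩
  obtain ⟨j, hj, rfl⟩ := hp
  exact rkA_of_line (B.line j hj)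

theorem baseH_O (B : BaseK k M d 1) : BaseH k (univ : Set M) (BsO d) := by
  refine ⟨fun p hp c _ hc => B.zero p (fun j hj e => hp ?_) c hc, fun p hp => ?_⟩
  · obtain rfl | rfl : j = 0 ∨ j = 1 := by omega
    · exact Or.inl (by rw [e, mul_zero])
    · exact Or.inr (by rw [e, mul_one])
  · obtain hp | hp := hp
    · rw [hp]
      exact rkA_of_line (g := pw B.ξ d 0) (by simpa using B.line 0 (by omega))
    · rw [hp]
      exact rkA_of_line (g := pw B.ξ d 1) (by simpa using B.line 1 le_rfl)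

end base

/-! ### The fibre step for the power maps -/

section fibre

variable {M : Type} [MetricSpace M] [CompactSpace M] [SimplyConnectedSpace M] {k : Type} [Field k]
  {x₀ : M} {Fs : ℕ → Prop} {w : ℕ → k} {m : ℕ} {ρ : ℝ}

theorem fib_pwr (hρ : 0 < ρ) (hU : LS.UniqSeg M ρ) (hm : 1 ≤ m) (f0 : Fs 0) (w0 : w 0 = 1)
    (L : OmL k (fun t => P x₀ x₀ t) (fun t => pwr t m) m Fs w) :
    Fib (fun w : ℝ →ᵇ M => w 0) univ (fun t => FL M t) (fun t => P x₀ x₀ t) x₀
      (fun t => pwr t m) m k Fs w := by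
  obtain ⟨R, ℓ₀, D, ℓ, r0, c, T⟩ := H923E.exists_tr0 hρ hU x₀
  exact fib_of T.fibU_FL (H456.fle_cpt x₀) H456.fle_lip (mem_univ _) (H456.fle_ob x₀)
    (H456.fle_ne univ) (by exact_mod_cast hm) (H456.fle_pwr hm) f0 w0 T.hx_FL
    (fun s hs => D907.uh_pw T hm hs) L

end fibre

/-! ### The outputs -/

section out

variable {E : Type} [NormedAddCommGroup E] [NormedSpace ℝ E] [FiniteDimensional ℝ E]
  {M : Type} [MetricSpace M] [CompactSpace M] [SimplyConnectedSpace M] [ChartedSpace E M]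
  [IsManifold 𝓘(ℝ, E) ∞ M] {k : Type} [Field k] {x₀ : M} {m d h N n : ℕ} {ρ B : ℝ}

theorem fsE_zero : FsE d N 0 := ⟨0, Or.inl (Nat.zero_mul N).symm⟩

theorem fsO_zero : FsO n 0 := ⟨0, (Nat.zero_mul _).symm⟩

theorem wE_zero (μ : k) : wE μ N 0 = 1 := by
  unfold wE
  rw [Nat.zero_div, Nat.zero_mod, add_zero, pow_zero]

theorem wO_zero (μ : k) : wO μ n 0 = 1 := by
  unfold wO
  rw [Nat.zero_div, pow_zero]

include E in
/-- **`d` even.** -/
theorem e2_pwC (hρ : 0 < ρ) (hU : LS.UniqSeg M ρ) (h2 : (2 : k) ≠ 0) (K : BaseK k M d h)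
    (hd : d % 2 = 0) (hd0 : 0 < d) (hN : N % 2 = 0) (hdN : d - 1 < N)
    (O : OmegaOutC M (d - 1) N x₀ B k) (hB : 0 < B) (hm : 1 ≤ m) (W : OmegaPwrC O m)
    (ho : OpN (FL M) (fun t => pwr t m) m k) :
    E2Out k M x₀ (BsE d h) (FsE d N) (wE (m : k) N) (EigPw k M m hm) :=
  H894.e2Out_pw hm (E2L.e2Lev_of (fib_pwr hρ hU hm fsE_zero (wE_zero _)
      (H893D.omL_pwC O hB hm hd hd0 hN hdN W)) (baseH_E K) ho)
    (H651.stepX_of_omegaC_mfd E hρ hU h2 O hB hdN)
    (H651.stepG_of_omegaC O hB hdN)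

include E in
/-- **`h = 1`, `n` even.** -/
theorem e2_pwE (hρ : 0 < ρ) (hU : LS.UniqSeg M ρ) (h2 : (2 : k) ≠ 0) (K : BaseK k M n 1)
    (hn : n % 2 = 0) (hn4 : 4 ≤ n)
    (O : OmegaOut M (n - 1) x₀ B k) (hB : 0 < B) (hm : 1 ≤ m) (W : OmegaPwrO O m)
    (ho : OpN (FL M) (fun t => pwr t m) m k) :
    E2Out k M x₀ (BsE n 1) (FsE n (2 * n - 2)) (wE (m : k) (2 * n - 2)) (EigPw k M m hm) :=
  H894.e2Out_pw hm (E2L.e2Lev_of (fib_pwr hρ hU hm fsE_zero (wE_zero _)
      (H893D.omL_pwE O hB.le hm hn hn4 W)) (baseH_E K) ho)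
    (H651.stepX_of_omega_mfd E hρ hU h2 O hB (by omega))
    (H651.stepG_of_omega O hB (by omega))

include E in
/-- **`h = 1`, `n` odd.** -/
theorem e2_pwO (hρ : 0 < ρ) (hU : LS.UniqSeg M ρ) (h2 : (2 : k) ≠ 0) (K : BaseK k M n 1)
    (hn : 2 ≤ n) (O : OmegaOut M (n - 1) x₀ B k) (hB : 0 < B) (hm : 1 ≤ m) (W : OmegaPwrE O m)
    (ho : OpN (FL M) (fun t => pwr t m) m k) :
    E2Out k M x₀ (BsO n) (FsO n) (wO (m : k) n) (EigPw k M m hm) :=
  H894.e2Out_pw hm (E2L.e2Lev_of (fib_pwr hρ hU hm fsO_zero (wO_zero _)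
      (H893D.omL_pwO O hB.le hm hn W)) (baseH_O K) ho)
    (H651.stepX_of_omega_mfd E hρ hU h2 O hB (by omega))
    (H651.stepG_of_omega O hB (by omega))

end out

end Vale.Agent.P216.D239
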