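import Vale.Agent.P216.B609.PInstD
import Vale.Agent.P216.B609.MainD
import Vale.Agent.P216.B64.GoalsC

/-!
# P216-D: the main theorem from the signs of the reversal, for an unbounded set of primes

`XCQGoal M Q e`: `XCGoal` for the primes `p` with `Q p` only; `main_CQ`: the main theorem.
-/

open Set Topology Bundle Manifold
open scoped ContDiff
open Vale.Agent.P216.H288 Vale.Agent.P216.H494 Vale.Agent.P216.L250

namespace Vale.Agent.P216.D239

open AS GM B64 B633 B609 Low DV706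

section

variable {M : Type} [MetricSpace M] [CompactSpace M] (G : GeoList M)
  (hD : DescentStmt (Hol.triv : Hol M) G)

/-- **The instance** of `PSysC` for the primes `p` with `Q p`, from the signs. -/
theorem psysCQ (hL : (S0 G hD).LevelBound) (h0 : (S0 G hD).BaseFin) {e : ℕ → ℕ} {B : ℝ}
    (hB : 0 < B) (Q : ℕ → Prop)
    (hX : ∀ p : ℕ, ∀ _ : Fact p.Prime, 2 < p → Q p → Nonempty (XGenC M 1 e 1 B (ZMod p))) :
    ∃ (K : ℕ) (B0 B1 : ℝ), ∀ p : ℕ, p.Prime → 2 < p → Q p → ∃ (k : Type) (_ : Field k),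
      Nonempty (T695.PSysC k p (Crit G.ℓ) K B0 B1) := by
  have hst : ∀ p : ℕ, ∀ _ : Fact p.Prime, 2 < p → Q p → ∀ s t : ℝ, 0 < s →
      ∀ (h : s ≤ s + B) (h' : s + B ≤ t) (n : ℕ),
        LinearMap.range ((S0 G hD).rV (ZMod p) h n) ≤
          LinearMap.range ((S0 G hD).rV (ZMod p) (h.trans h') n) := by
    intro p hpp h2 hQ s t hs h h' i
    obtain ⟨X⟩ := hX p hpp h2 hQ
    exact (xiso G hD (ZMod p) hpp.out h2 (finAt G hD hL h0 p h2)).stableC X hB hs.le h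
      (h.trans h') i
  obtain ⟨K, hK⟩ := (S0 G hD).bars_of_levelBoundQ hL hB.le Q hst h0
  obtain ⟨a, ha⟩ := exists_regCof (exists_reg G hD)
  refine ⟨K, B, B, fun p hp h2 hQ => ⟨ZMod p, @ZMod.instField p ⟨hp⟩, ?_⟩⟩
  have hpp : Fact p.Prime := ⟨hp⟩
  obtain ⟨X⟩ := hX p hpp h2 hQ
  have hf := finAt G hD hL h0 p h2
  have Φ := xiso G hD (ZMod p) hp h2 hf
  refine ⟨(T0 G hD (ZMod p) hp h2 hf).toPSysC hp.pos ha
    (Φ.restC X ha (GSys.two_ne_zero' h2) one_lt_two hB (Or.inl rfl) (K := K) ?_ ?_ ?_ ?_)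
    (Φ.birthsC X hB)⟩
  · exact fun t ht htc => (hf t ht htc).2
  · exact fun t ht htc m T h hT => hK p hpp h2 hQ t ht htc T h hT m
  · exact fun s t h hs hc i => (S0 G hD).res_bijective hs h hc ((S0 G hD).mono s t h) i
  · exact fun s t h hs hsc htc h1 => rel G hD p h2 hf s t h hs hsc htc h1

end

/-- `XCGoal` for the primes `p` with `Q p`. -/
def XCQGoal (M : Type) [MetricSpace M] (Q : ℕ → Prop) (e : ℕ → ℕ) : Prop :=
  ∀ ρ : ℝ, 0 < ρ → LS.UniqSeg M ρ → ∃ B : ℝ, 0 < B ∧ ∀ p : ℕ, ∀ _ : Fact p.Prime, 2 < p →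
    Q p → Nonempty (XGenC M 1 e 1 B (ZMod p))

/-- **The main theorem from the signs of the reversal**, for an unbounded set of primes. -/
theorem main_CQ
    {E : Type} [NormedAddCommGroup E] [NormedSpace ℝ E] [FiniteDimensional ℝ E]
    {M : Type} [MetricSpace M] [CompactSpace M] [ChartedSpace E M] [IsManifold 𝓘(ℝ, E) ∞ M]
    [RiemannianBundle (fun x : M => TangentSpace 𝓘(ℝ, E) x)]
    [IsContMDiffRiemannianBundle 𝓘(ℝ, E) ∞ E (fun x : M => TangentSpace 𝓘(ℝ, E) x)]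
    [IsRiemannianManifold 𝓘(ℝ, E) M] [PreconnectedSpace M] (Q : ℕ → Prop)
    (hQ : ∀ N : ℕ, ∃ p, N < p ∧ p.Prime ∧ Q p) (e : ℕ → ℕ)
    (hX : XCQGoal M Q e) : (primeClosedGeodesicImages M).Infinite := by
  intro hfin
  obtain ⟨ρ, hρ, hs, _⟩ := Geo.exists_uniqSeg E M
  obtain ⟨G⟩ := exists_geoList (nonBranching_of_riemannian (E := E) (M := M)) hfin
  have hLOC : GM.LOC M := H319.loc (E := E) hρ hs (H844.f4_M E M)
  obtain ⟨B, hB, hX'⟩ := hX ρ hρ hs
  have hD := descentStmt (Hol.triv : Hol M) G hρ hs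
  obtain ⟨K, B0, B1, h⟩ := psysCQ G hD (GM.levelBound (GM.f1 hρ hs) hLOC GM.tw Hol.triv G hD)
    (baseFin_of_finM G hD (finM_of_chartedSpace E)) hB Q hX'
  have := G.fin
  exact tightEndQ G.ℓ G.ℓ_pos K B0 B1 Q hQ h

end Vale.Agent.P216.D239
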