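import Vale.Agent.P216.D239.Cov

/-!
# P216-D: total cocycles and cocycles of the union; the reduction along the filtration by rows
-/

set_option linter.unusedSectionVars false

open Set Finsupp

namespace Vale.Agent.P216.D239

open Vale.Agent.P216.Sl Vale.Agent.P216.PS Vale.Agent.P216.H140

variable {k : Type} [Field k] {V E : Type} [PseudoMetricSpace E]

theorem dv_aug_one {g : List E → k} {σ : List V} {l : List E} (h : σ.length = 1)
    (hl : ¬ l.length ≤ 1) : dv (aug g) σ l = dl g l := by
  rw [dv_pos hl]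
  exact dl_congrS fun l' _ _ => if_pos h

theorem DT_aug_one {g : List E → k} {σ : List V} {l : List E} (h : σ.length = 1)
    (hl : ¬ l.length ≤ 1) : DT (aug g) σ l = -dl g l := by
  rw [DT, dh_neg h.le, dv_aug_one h hl, h]
  ring

variable {C C' : Cov V E}

/-- A statement on the small lists of the pieces gives one on the small lists of the union. -/
theorem Cov.Row.of_pieces (R : C.Row) {q : ℕ} (hq : 1 ≤ q) {f : List E → k}
    (h : Van C 1 q fun _ l => f l) : ∃ ε > 0, ∀ l, l.length = q → SmL (C.S []) ε l → f l = 0 := by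
  obtain ⟨ε, hε, h⟩ := h
  refine ⟨min ε R.ε, lt_min hε R.hε, fun l hl hs => ?_⟩
  have h0 : l ≠ [] := by
    rintro rfl
    simp at hl
    omega
  obtain ⟨h1, h2⟩ := R.row [] l C.G_nil h0 (hs.mono subset_rfl (min_le_right _ _))
  have h3 : C.G [R.lam l] := h2.resolve_right fun ⟨σ', h, _⟩ => by simp at h
  exact h _ h3 rfl l hl ⟨h1, fun x hx y hy => (hs.2 x hx y hy).trans_le (min_le_left _ _)⟩

/-- **A1**: every total cocycle comes from a cocycle of the union. -/
theorem exists_coc (R : C.Row) {n : ℕ} {F : List V → List E → k} (hR : TR C (n + 2) F)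
    (hD : TV C 0 (n + 3) (DT F)) :
    ∃ (B : List V → List E → k) (g : List E → k), TR C (n + 1) B ∧
      CocR (C.S []) (C.S [] ∩ C.A) n g ∧ TV C 0 (n + 2) (fun σ l => F σ l - aug g σ l - DT B σ l) := by
  obtain ⟨B, g, hB, hg, hE⟩ := asm' R (by omega) hR (hD.mono_r (by omega))
  refine ⟨B, g, hB, ⟨?_, hg⟩, hE⟩
  have h1 : TV C 0 (n + 3) (DT fun σ l => F σ l - aug g σ l - DT B σ l) := hE.DT0
  have h2 : TV C 0 (n + 3) (DT (aug g)) := by
    refine (hD.sub h1).congr fun σ l _ _ _ => ?_
    have h3 : DT (fun σ l => F σ l - aug g σ l - DT B σ l) σ l =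
        DT F σ l - DT (aug g) σ l - DT (DT B) σ l := by
      rw [DT_sub (fun σ l => F σ l - aug g σ l) (DT B), DT_sub]
    rw [h3, DT_DT]
    ring
  refine R.of_pieces (by omega) (((h2 1 (n + 2) (by omega) (by omega) (by omega)
    (by omega)).smul (-1)).congr fun σ l x y => ?_)
  rw [DT_aug_one x (by omega)]
  ring

/-- **A2**: a cochain of the union which is a total coboundary is a coboundary. -/
theorem exR_of_total (R : C.Row) {n : ℕ} {g : List E → k} {B : List V → List E → k}
    (hR : TR C (n + 1) B) (h : TV C 0 (n + 2) fun σ l => aug g σ l - DT B σ l) :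
    ExR (C.S []) (C.S [] ∩ C.A) n g := by
  rcases Nat.eq_zero_or_pos n with rfl | hn
  · refine ⟨fun _ => 0, fun _ _ => rfl, ⟨1, one_pos, fun _ _ _ => rfl⟩, ?_⟩
    have := R.of_pieces (q := 1) le_rfl (f := fun l => g l) (k := k)
      ((h 1 1 le_rfl le_rfl (by omega) (by omega)).congr fun σ l x y => ?_)
    · obtain ⟨ε, hε, h⟩ := this
      exact ⟨ε, hε, fun l hl hs => by rw [PS.dl_zero_fun]; exact h l hl hs⟩
    · rw [aug, if_pos x, DT, dh_neg x.le, dv_neg y.le, mul_zero, add_zero, sub_zero]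
  · have h1 : TV C 2 (n + 2) (DT B) := by
      intro p q a b c d
      refine ((h p q a b (by omega) d).smul (-1)).congr fun σ l x _ => ?_
      rw [aug, if_neg (by omega)]
      ring
    obtain ⟨B', g', hB', hg', hE⟩ := asm' R (by omega) hR h1
    have h2 : TV C 0 (n + 2) (DT fun σ l => B σ l - aug g' σ l - DT B' σ l) := hE.DT0
    obtain ⟨ε, hε, h3⟩ := R.of_pieces (q := n + 1) (by omega) (f := fun l => g l + dl g' l) (k := k)
      ((((h.add h2) 1 (n + 1) (by omega) (by omega) (by omega) (by omega))).congr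
        fun σ l x y => by
          have h3 : DT (fun σ l => B σ l - aug g' σ l - DT B' σ l) σ l =
              DT B σ l - DT (aug g') σ l - DT (DT B') σ l := by
            rw [DT_sub (fun σ l => B σ l - aug g' σ l) (DT B'), DT_sub]
          rw [h3, DT_DT, DT_aug_one x (by omega), aug, if_pos x]
          ring)
    refine ⟨fun l => -g' l, fun h0 => absurd h0 (by omega), ?_, ε, hε, fun l hl hs => ?_⟩
    · obtain ⟨ε', hε', h4⟩ := hg'
      refine ⟨ε', hε', fun l hl hs => ?_⟩
      show -g' l = 0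
      rw [h4 l (by omega) hs, neg_zero]
    · rw [PS.dl_neg]
      exact eq_neg_of_add_eq_zero_left (h3 l hl hs)

/-! ### The reduction along the rows -/

/-- `F` vanishes in the bidegrees `(p, q)`, `1 ≤ p ≤ r`, `1 ≤ q`, `p + q = N`. -/
def TU (C : Cov V E) (r N : ℕ) (F : List V → List E → k) : Prop :=
  ∀ p q, 1 ≤ p → 1 ≤ q → p ≤ r → p + q = N → Van C p q F

/-- **The term `E_2` is killed** by the restriction from `C` to `C'` in bidegree `(p - 1, q - 1)`. -/
def Z2 (k : Type) [Field k] (C C' : Cov V E) (p q : ℕ) : Prop :=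
  ∀ F F₁ : List V → List E → k, Rel C p q F → Rel C (p + 1) (q - 1) F₁ →
    Van C p (q + 1) (dv F) → Van C (p + 1) q (fun σ l => dh F σ l - dv F₁ σ l) →
    ∃ u w : List V → List E → k, Rel C' p (q - 1) u ∧ Rel C' (p - 1) q w ∧
      Van C' (p - 1) (q + 1) (dv w) ∧ Van C' p q fun σ l => F σ l - (dv u σ l + dh w σ l)

theorem Z2.le {C₀ C C' C₁ : Cov V E} {p q : ℕ} (h : Z2 k C C' p q) (h0 : C.Le C₀) (h1 : C₁.Le C') :
    Z2 k C₀ C₁ p q := by
  intro F F₁ a b c d
  obtain ⟨u, w, e1, e2, e3, e4⟩ := h F F₁ (a.le h0) (b.le h0) (c.le h0) (d.le h0)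
  exact ⟨u, w, e1.le h1, e2.le h1, e3.le h1, e4.le h1⟩

/-- No admissible lists. -/
theorem Z2.of_empty {p q : ℕ} (h : ∀ σ, C.G σ → σ.length ≠ p) : Z2 k C C p q := by
  intro F F₁ _ _ _ _
  refine ⟨fun _ _ => 0, fun _ _ => 0, rel_zero, rel_zero, van_zero.dv, ?_⟩
  exact ⟨1, one_pos, fun σ hσ hp => absurd hp (h σ hσ)⟩

/-- One step of the reduction. -/
theorem red_step {N p : ℕ} (hC : C'.Le C) (hp : 1 ≤ p) (hN : p + 1 ≤ N) (hZ : Z2 k C C' p (N - p))
    {F : List V → List E → k} (hR : TR C N F) (h0 : ∀ σ l, σ.length < p → F σ l = 0)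
    (hD : TU C (p + 1) (N + 1) (DT F)) :
    ∃ B F' : List V → List E → k, TR C' (N - 1) B ∧ TR C' N F' ∧
      (∀ σ l, σ.length < p - 1 → B σ l = 0) ∧ (∀ σ l, σ.length < p + 1 → F' σ l = 0) ∧
      TV C' 0 N (fun σ l => F σ l - F' σ l - DT B σ l) := by
  obtain ⟨q, hq, rfl⟩ : ∃ q, 1 ≤ q ∧ N = p + q := ⟨N - p, by omega, by omega⟩
  rw [Nat.add_sub_cancel_left] at hZ
  have hdh : ∀ σ l, σ.length ≤ p → dh F σ l = 0 := by
    intro σ l h
    by_cases h1 : σ.length ≤ 1
    · exact dh_neg h1 l
    rw [dh_pos h1]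
    exact dl_zeroS fun σ' _ _ => h0 σ' l (by omega)
  have hsq : (-1 : k) ^ p * (-1) ^ p = 1 := by
    rw [← pow_add, ← two_mul]; simp
  have hF₁ : ∀ σ l, dv (fun σ l => if l.length = 0 then 0 else (-1) ^ p * F σ l) σ l =
      (-1 : k) ^ p * dv F σ l := by
    intro σ l
    by_cases h : l.length ≤ 1
    · rw [dv_neg h, dv_neg h, mul_zero]
    rw [dv_pos h, dv_pos h, ← PS.dl_smul]
    exact dl_congrS fun l' h1 _ => if_neg (by omega)
  obtain ⟨u, w, hu, hw, hdw, hE⟩ := hZ F (fun σ l => if l.length = 0 then 0 else (-1) ^ p * F σ l)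
    (hR p q hp hq rfl)
    (by
      by_cases h : 2 ≤ q
      · exact ((hR (p + 1) (q - 1) (by omega) (by omega) (by omega)).smul ((-1) ^ p)).congr
          fun σ l _ y => if_neg (by omega)
      · exact rel_zero.congr fun σ l _ y => if_pos (by omega))
    (((hD p (q + 1) hp (by omega) (by omega) (by omega)).smul ((-1) ^ p)).congr fun σ l x _ => by
      rw [DT, hdh σ l x.le, x, zero_add, ← mul_assoc, hsq, one_mul])
    ((hD (p + 1) q (by omega) hq le_rfl (by omega)).congr fun σ l x _ => by
      rw [hF₁, DT, x, pow_succ]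
      ring)
  set B : List V → List E → k := fun σ l =>
    spot p (q - 1) (fun σ l => (-1) ^ p * u σ l) σ l + spot (p - 1) q w σ l with hB
  have hBR : TR C' (p + q - 1) B := by
    refine TR.add ?_ ?_
    · intro p' q' a b c
      by_cases h4 : p' = p ∧ q' = q - 1
      · obtain ⟨rfl, rfl⟩ := h4
        exact (hu.smul _).congr fun σ l a b => spot_pos a b
      · exact rel_zero.congr fun σ l a b => spot_neg fun h => h4 ⟨by omega, by omega⟩
    · exact tr_spot hw
  have hDB : ∀ σ l, DT B σ l = DT (spot p (q - 1) fun σ l => (-1) ^ p * u σ l) σ l +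
      DT (spot (p - 1) q w) σ l := fun σ l => DT_add _ _ _ _
  have hDBR : TR C' (p + q) (DT B) := by
    have := hBR.DT
    rwa [show p + q - 1 + 1 = p + q by omega] at this
  refine ⟨B, cutlt (p + 1) fun σ l => F σ l - DT B σ l, hBR, ?_, ?_, ?_, ?_⟩
  · intro p' q' a b c
    by_cases h : p' < p + 1
    · exact rel_zero.congr fun σ l x _ => if_pos (by omega)
    · exact (((hR p' q' a b c).le hC).sub (hDBR p' q' a b c)).congr
        fun σ l x _ => if_neg (by omega)
  · intro σ l h
    rw [hB]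
    show spot p (q - 1) (fun σ l => (-1) ^ p * u σ l) σ l + spot (p - 1) q w σ l = 0
    rw [spot_neg (by omega), spot_neg (by omega), add_zero]
  · intro σ l h
    exact if_pos h
  · intro p' q' a b _ c
    rcases lt_trichotomy p' p with h | h | h
    · by_cases h' : p' = p - 1
      · obtain rfl : q' = q + 1 := by omega
        subst h'
        refine (hdw.smul (-(-1) ^ (p - 1))).congr fun σ l x y => ?_
        rw [cutlt, if_pos (by omega), h0 σ l (by omega), hDB, DT, DT, dh_spot _ (by omega),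
          dv_spot _ (by omega), dh_spot _ (by omega), dv_spot' _ x y, x]
        ring
      · refine van_zero.congr fun σ l x y => ?_
        rw [cutlt, if_pos (by omega), h0 σ l (by omega), hDB, DT, DT, dh_spot _ (by omega),
          dv_spot _ (by omega), dh_spot _ (by omega), dv_spot _ (by omega)]
        ring
    · subst h
      obtain rfl : q' = q := by omega
      refine hE.congr fun σ l x y => ?_
      rw [cutlt, if_pos (by omega), hDB, DT, DT, dh_spot _ (by omega),
        dv_spot' _ x (by omega), dh_spot' _ (by omega) y, dv_spot _ (by omega), dv_smul, x]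
      linear_combination (-(dv u σ l)) * hsq
    · refine van_zero.congr fun σ l x y => ?_
      rw [cutlt, if_neg (by omega)]
      ring

/-- **The reduction (P1)** from the row `p₀` to the row `p₁`. -/
theorem reduce {N p₀ : ℕ} (hp₀ : 1 ≤ p₀) (C : ℕ → Cov V E) : ∀ (m : ℕ), p₀ + m ≤ N →
    (∀ i < m, (C (i + 1)).Le (C i)) → (∀ i < m, Z2 k (C i) (C (i + 1)) (p₀ + i) (N - (p₀ + i))) →
    ∀ {F : List V → List E → k}, TR (C 0) N F → (∀ σ l, σ.length < p₀ → F σ l = 0) →
    TU (C 0) (p₀ + m) (N + 1) (DT F) →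
    ∃ B F' : List V → List E → k, TR (C m) (N - 1) B ∧ TR (C m) N F' ∧
      (∀ σ l, σ.length < p₀ - 1 → B σ l = 0) ∧ (∀ σ l, σ.length < p₀ + m → F' σ l = 0) ∧
      TV (C m) 0 N (fun σ l => F σ l - F' σ l - DT B σ l) := by
  intro m
  induction m with
  | zero =>
    intro _ _ _ F hR h0 _
    refine ⟨fun _ _ => 0, F, tr_zero, hR, fun _ _ _ => rfl, h0, ?_⟩
    refine tv_zero.congr fun σ l _ _ _ => ?_
    have : DT (fun _ _ => (0 : k)) σ l = 0 := by
      unfold DT dh dv
      split_ifs <;> simp [PS.dl_zero_fun]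
    rw [this]
    ring
  | succ m ih =>
    intro hN hC hZ F hR h0 hD
    obtain ⟨B, F', hB, hF', hB0, hF0, hE⟩ := ih (by omega) (fun i hi => hC i (by omega))
      (fun i hi => hZ i (by omega)) hR h0 (fun p q a b c d => hD p q a b (by omega) d)
    have hle : (C m).Le (C 0) := by
      have : ∀ j, j ≤ m → (C j).Le (C 0) := by
        intro j
        induction j with
        | zero => intro _; exact Cov.Le.refl _
        | succ j ihj => intro hj; exact (hC j (by omega)).trans (ihj (by omega))
      exact this m le_rfl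
    have hD' : TU (C m) (p₀ + m + 1) (N + 1) (DT F') := by
      intro p q a b c d
      refine (((hD p q a b (by omega) d).le hle).sub
        ((show TV (C m) 0 (N + 1) (DT fun σ l => F σ l - F' σ l - DT B σ l) from hE.DT0)
          p q a b (by omega) d)).congr fun σ l _ _ => ?_
      have h3 : DT (fun σ l => F σ l - F' σ l - DT B σ l) σ l =
          DT F σ l - DT F' σ l - DT (DT B) σ l := by
        rw [DT_sub (fun σ l => F σ l - F' σ l) (DT B), DT_sub]
      rw [h3, DT_DT]
      ring
    obtain ⟨B', F'', hB', hF'', hB0', hF0', hE'⟩ := red_step (hC m (by omega)) (by omega)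
      (by omega) (hZ m (by omega)) hF' hF0 hD'
    refine ⟨fun σ l => B σ l + B' σ l, F'', (hB.le (hC m (by omega))).add hB', hF'', ?_, hF0', ?_⟩
    · intro σ l h
      show B σ l + B' σ l = 0
      rw [hB0 σ l h, hB0' σ l (by omega), add_zero]
    · refine ((hE.le (hC m (by omega))).add hE').congr fun σ l _ _ _ => ?_
      rw [DT_add]
      ring

end Vale.Agent.P216.D239
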