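import Vale.Agent.P216.V893.CstQ
import Vale.Agent.P216.V773.RepM
import Vale.Agent.P216.V994.PTw
import Vale.Agent.P216.H215.SCGlue

/-!
# P216-V: the last assembly

`false_of_hInd`: the goal from the independence in the based loops.
-/

set_option linter.unusedSectionVars false

open Set Bundle Manifold BoundedContinuousFunction
open scoped ContDiff

namespace Vale.Agent.P216.D239

open Vale.Agent.P216.V609 Vale.Agent.P216.H285V Vale.Agent.P216.H929V Vale.Agent.P216.V893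
open Vale.Agent.P216.V706 (Two)
open Vale.Agent.P216.V994 (Pair pairOf)
open Vale.Agent.P216.V775
open Vale.Agent.P216.V773 (sc gm gmH)
open Vale.Agent.P216.ASCoh (Monogenic)

/-- The independence in the based loops at `b`. -/
def HInd (N : Type) [MetricSpace N] (b : N) : Prop :=
  ∀ {f₂ : ℕ} (T₁ : Two (vr (univ : Set N)).dga f₂) {ε : ℝ} (hε : 0 < ε)
    (P : Pair (sc (vr (univ : Set N)) ε).C) (T₀ : Tw (sc (vr (univ : Set N)) ε))
    (ê : P.σ → T₀.top.A), P.map (gmH _ hε) = pairOf (D := (vr (univ : Set N)).cdga) T₁ →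
    ∀ (_ : PTw P T₀ ê) (h' : PTw (X := gCD (univ : Set N)) (P.map (gmH _ hε)) (T₀.push (gmH _ hε))
        fun i => (T₀.map (gmH _ hε)).f (ê i))
      (om : (T₀.push (gmH _ hε)).top.Hm (gCD ({b} : Set N)))
      (_ : ∀ a, om.f ((T₀.push (gmH _ hε)).inc.f a) = (vs N b).ε.f a)
      (_ : ∀ j, om.f ((T₀.map (gmH _ hε)).f (ê j)) = 0),
    ∃ b₀ : ℝ, ∀ (n : ℕ) (t : ℝ), b₀ * (n + 1) ≤ t →
      ∀ β₁ ∈ ((T₀.push (gmH _ hε)).obj ((vs N b).PF.Y t)).D.deg (2 * P.n₁),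
      ∀ β₂ ∈ ((T₀.push (gmH _ hε)).obj ((vs N b).PF.Y t)).D.deg (2 * P.n₂),
      ((T₀.push (gmH _ hε)).obj ((vs N b).PF.Y t)).D.d β₁ =
        ((T₀.push (gmH _ hε)).obj ((vs N b).PF.Y t)).ev.f h'.y₁ →
      ((T₀.push (gmH _ hε)).obj ((vs N b).PF.Y t)).D.d β₂ =
        ((T₀.push (gmH _ hε)).obj ((vs N b).PF.Y t)).ev.f h'.y₂ →
      ∀ oPF : NMp om ((T₀.push (gmH _ hε)).obj ((vs N b).PF.Y t)) ((vs N b).Om.Y t),
        (∀ a, oPF.g.f (((T₀.push (gmH _ hε)).inj ((vs N b).PF.Y t)).f a) =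
          ((vs N b).oPF t).g.f a) →
        NIndep ((vs N b).Om.Y t).D (oPF.g.f β₁) (oPF.g.f β₂) (2 * P.n₁) (2 * P.n₂) n

/-- **The last assembly.** -/
theorem false_of_hInd (E : Type) [NormedAddCommGroup E] [NormedSpace ℝ E] [FiniteDimensional ℝ E]
    {N : Type} [MetricSpace N] [CompactSpace N] [ChartedSpace E N] [IsManifold 𝓘(ℝ, E) ∞ N]
    [RiemannianBundle (fun x : N => TangentSpace 𝓘(ℝ, E) x)]
    [IsContMDiffRiemannianBundle 𝓘(ℝ, E) ∞ E (fun x : N => TangentSpace 𝓘(ℝ, E) x)]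
    [IsRiemannianManifold 𝓘(ℝ, E) N] [SimplyConnectedSpace N]
    (hn : 2 ≤ Module.finrank ℝ E) (hM : ∀ d h : ℕ, ¬ Monogenic N ℚ d h)
    (hfin : ¬ (primeClosedGeodesicImages N).Infinite) (b : N) (hI : HInd N b) : False := by
  obtain ⟨f₂, T₁, hT⟩ := V773.rep_M E (by omega : 1 ≤ Module.finrank ℝ E) hM
  obtain ⟨ε, hε, -, P, T₀, ê, hP, h⟩ := hT 1 one_pos
  have h' := PTw.push (gmH _ hε) h
  obtain ⟨om, hω, hω0⟩ := exists_aug (qd_pair (X := gCD (univ : Set N)) (P.map (gmH _ hε))) h' (vs N b).ε (vs N b).ε_van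
  obtain ⟨b₀, hb⟩ := hI T₁ hε P T₀ ê hP h h' om hω hω0
  exact VS.vend (vs N b) (P.map (gmH _ hε)) h' (fun t ht => qiso_vs b ht)
    (linBd_vs (E := E) hfin b) hω hω0 hb

/-- **The goal from the independence in the based loops.** -/
theorem vGoal_of (hI : ∀ (N : Type) [MetricSpace N] [CompactSpace N] [SimplyConnectedSpace N]
    {ρ : ℝ}, 0 < ρ → LS.UniqSeg N ρ → ∀ b : N, HInd N b) : H215.VGoal := by
  intro E _ _ _ N _ _ _ _ _ _ _ _ hn hM
  by_contra hfin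
  obtain ⟨ρ, hρ, hs, -⟩ := Geo.exists_uniqSeg E N
  obtain ⟨b⟩ : Nonempty N := inferInstance
  exact false_of_hInd E hn hM hfin b (hI N hρ hs b)

end Vale.Agent.P216.D239
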