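import Vale.Agent.P216.D239.VTop
import Vale.Agent.P216.V775.HEx
import Vale.Agent.P216.V893.QTw

/-!
# P216-V: the assembly for all levels

`HXF`: the data of `V775.HX` at all levels `t`. `HXF.false_of`: linear growth over the free loops,
the Koszul tower with two closed odd elements `ŷ₁`, `ŷ₂`, and the independence on the based loops
(F) are contradictory.
-/

universe u v w'

set_option linter.unusedSectionVars false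
set_option linter.checkUnivs false

open Finset

namespace Vale.Agent.P216.D239

open Vale.Agent.P216.V609 Vale.Agent.P216.V775 Vale.Agent.P216.V893

/-- The data at all levels. -/
structure HXF (k : Type w') [Field k] where
  X : CD.{v} k
  X₂ : CD.{v} k
  Xb : CD.{v} k
  pr₀ : X.Hm X₂
  pr₁ : X.Hm X₂
  diag : X₂.Hm X
  ptb : X₂.Hm X
  ε : X.Hm Xb
  diag_pr₀ : ∀ a, diag.f (pr₀.f a) = a
  diag_pr₁ : ∀ a, diag.f (pr₁.f a) = a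
  ptb_pr₀ : ∀ a, ptb.f (pr₀.f a) = a
  ptb_pr₁ : ∀ p a, a ∈ X.C.deg (p + 1) → ptb.f (pr₁.f a) = 0
  ε_van : ∀ p a, a ∈ X.C.deg (p + 1) → ε.f a = 0
  ε_eq : ∀ a, ε.f (diag.f a) = ε.f (ptb.f a)
  PP : ℝ → ND.{u} X₂
  MM : ND.{u} X
  FL : NSysO.{u} X
  PF : NSysO.{u} X
  Om : NSysO.{u} Xb
  cst : ∀ t, NMp diag (PP t) MM
  rFL : ∀ t, NMp diag (PP t) (FL.Y t)
  rPF : ∀ t, NMp ptb (PP t) (PF.Y t)
  oFL : ∀ t, NMp ε (FL.Y t) (Om.Y t)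
  oPF : ∀ t, NMp ε (PF.Y t) (Om.Y t)
  o_eq : ∀ t a, (oFL t).g.f ((rFL t).g.f a) = (oPF t).g.f ((rPF t).g.f a)
  oFL_ρ : ∀ s t h a, (oFL t).g.f ((FL.ρ s t h).g.f a) = (Om.ρ s t h).g.f ((oFL s).g.f a)
  oPF_ρ : ∀ s t h a, (oPF t).g.f ((PF.ρ s t h).g.f a) = (Om.ρ s t h).g.f ((oPF s).g.f a)

namespace HXF

variable {k : Type w'} [Field k] (F : HXF.{u, v} k)

/-- the data at one level -/
def at' (t : ℝ) : HX.{u, v} k where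
  X := F.X
  X₂ := F.X₂
  Xb := F.Xb
  pr₀ := F.pr₀
  pr₁ := F.pr₁
  diag := F.diag
  ptb := F.ptb
  ε := F.ε
  diag_pr₀ := F.diag_pr₀
  diag_pr₁ := F.diag_pr₁
  ptb_pr₀ := F.ptb_pr₀
  ptb_pr₁ := F.ptb_pr₁
  ε_van := F.ε_van
  ε_eq := F.ε_eq
  PP := F.PP t
  MM := F.MM
  FL := F.FL.Y t
  PF := F.PF.Y t
  Om := F.Om.Y t
  cst := F.cst t
  rFL := F.rFL t
  rPF := F.rPF t
  oFL := F.oFL t
  oPF := F.oPF t
  o_eq := F.o_eq t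

/-- **The independence (F).** -/
def Ind {T : Tw F.X} {σ : Type} (ê : σ → T.top.A) (ŷ₁ ŷ₂ : T.top.A) (n₁ n₂ : ℕ) : Prop :=
  ∀ (ω : T.top.Hm F.Xb), (∀ a, ω.f (T.inc.f a) = F.ε.f a) → (∀ j, ω.f (ê j) = 0) →
    ∀ φ : ∀ t, NMp ω (T.obj (F.PF.Y t)) (F.Om.Y t),
      (∀ t a, (φ t).g.f ((T.inj (F.PF.Y t)).f a) = (F.oPF t).g.f a) →
      ∃ b : ℝ, ∀ (N : ℕ) (t : ℝ), b * (N + 1) ≤ t →
        ∀ β₁ ∈ (T.obj (F.PF.Y t)).D.deg (2 * n₁), ∀ β₂ ∈ (T.obj (F.PF.Y t)).D.deg (2 * n₂),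
          (T.obj (F.PF.Y t)).D.d β₁ = (T.obj (F.PF.Y t)).ev.f ŷ₁ →
          (T.obj (F.PF.Y t)).D.d β₂ = (T.obj (F.PF.Y t)).ev.f ŷ₂ →
            NIndep (F.Om.Y t).D ((φ t).g.f β₁) ((φ t).g.f β₂) (2 * n₁) (2 * n₂) N

variable {F} {σ : Type} [Fintype σ] [DecidableEq σ] {w : σ → ℕ} {f : ℕ}
  {Q : σ → MvPolynomial σ k} {q : σ → σ → MvPolynomial σ k}

/-- **The contradiction.** -/
theorem false_of (hc : ∀ t : ℝ, 0 < t → Qiso (F.cst t).g) (hL : F.FL.toNSys.LinBd) {T : Tw F.X}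
    {S : KS F.X w f Q} {ê : σ → T.top.A} (hq : QD w f Q q) (h : KTw q S ∅ 0 T ê)
    {ŷ₁ ŷ₂ : T.top.A} {n₁ n₂ : ℕ} (h₁ : Good T ê ŷ₁ n₁) (h₂ : Good T ê ŷ₂ n₂)
    (hF : F.Ind ê ŷ₁ ŷ₂ n₁ n₂) : False := by
  obtain ⟨ω, hω, hω0⟩ := exists_aug hq h F.ε F.ε_van
  have hoFL : ∀ t, ∃ g' : NMp ω (T.obj (F.FL.Y t)) (F.Om.Y t),
      ∀ a, g'.g.f ((T.inj (F.FL.Y t)).f a) = (F.oFL t).g.f a := fun t =>
    T.exists_nlift hq.two ω (F.oFL t).g fun a => by rw [(F.oFL t).ev, hω]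
  have hoPF : ∀ t, ∃ g' : NMp ω (T.obj (F.PF.Y t)) (F.Om.Y t),
      ∀ a, g'.g.f ((T.inj (F.PF.Y t)).f a) = (F.oPF t).g.f a := fun t =>
    T.exists_nlift hq.two ω (F.oPF t).g fun a => by rw [(F.oPF t).ev, hω]
  choose φF hφF using hoFL
  choose φP hφP using hoPF
  obtain ⟨b, hb⟩ := hF ω hω hω0 φP hφP
  refine vtop (NSysO.tw T F.FL).toNSys (NSysO.linBd_tw T F.FL hL)
    (fun t => (T.obj (F.PF.Y t)).D) (fun t => (F.Om.Y t).D)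
    (fun s t h => ((NSysO.tw T F.PF).ρ s t h).g) (fun s t h => (F.Om.ρ s t h).g)
    (fun t => (φF t).g) (fun t => (φP t).g) (fun s t h' a => ?_) (fun s t h' a => ?_)
    (fun t => (T.obj (F.PF.Y t)).ev.f ŷ₁) (fun t => (T.obj (F.PF.Y t)).ev.f ŷ₂)
    (fun s t h' => ((NSysO.tw T F.PF).ρ s t h').ev ŷ₁)
    (fun s t h' => ((NSysO.tw T F.PF).ρ s t h').ev ŷ₂) (p := 2 * n₁) (q := 2 * n₂)
    (fun s hs => ?_) hb
  · -- naturality over the free loops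
    refine T.nlift_unique (A := F.FL.Y s) (g := (φF t).g.comp (T.omap (F.FL.ρ s t h')).g)
      (g' := (F.Om.ρ s t h').g.comp (φF s).g) (fun b => ?_) (fun b => ?_) a
    · show (φF t).g.f ((T.omap (F.FL.ρ s t h')).g.f _) = (F.Om.ρ s t h').g.f ((φF s).g.f _)
      rw [T.omap_inj, hφF, hφF, F.oFL_ρ]
    · show (φF t).g.f ((T.omap (F.FL.ρ s t h')).g.f _) = (F.Om.ρ s t h').g.f ((φF s).g.f _)
      rw [(T.omap (F.FL.ρ s t h')).ev, (φF t).ev, (φF s).ev, (F.Om.ρ s t h').ev]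
  · refine T.nlift_unique (A := F.PF.Y s) (g := (φP t).g.comp (T.omap (F.PF.ρ s t h')).g)
      (g' := (F.Om.ρ s t h').g.comp (φP s).g) (fun b => ?_) (fun b => ?_) a
    · show (φP t).g.f ((T.omap (F.PF.ρ s t h')).g.f _) = (F.Om.ρ s t h').g.f ((φP s).g.f _)
      rw [T.omap_inj, hφP, hφP, F.oPF_ρ]
    · show (φP t).g.f ((T.omap (F.PF.ρ s t h')).g.f _) = (F.Om.ρ s t h').g.f ((φP s).g.f _)
      rw [(T.omap (F.PF.ρ s t h')).ev, (φP t).ev, (φP s).ev, (F.Om.ρ s t h').ev]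
  · -- the classes
    have hinj : ∀ n a, a ∈ ((F.at' s).PPh T).D.Z n → ((F.at' s).cstW T).g.f a ∈
        ((((F.at' s).T₁ T).push (((F.at' s).T₀ T).map (F.at' s).diag)).obj
          ((((F.at' s).T₀ T).push (F.at' s).diag).obj (F.at' s).MM)).D.B n →
        a ∈ ((F.at' s).PPh T).D.B n := fun n a ha hb =>
      ((((hc s hs).nmap ((F.at' s).T₀ T)).nmap ((F.at' s).T₁ T)).1 ha hb)
    obtain ⟨α₁, hα₁, β₁, hβ₁, e1, e2⟩ := HX.main (H := F.at' s) hq h hinj hω hω0 (φF s) (hφF s)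
      (φP s) (hφP s) h₁
    obtain ⟨α₂, hα₂, β₂, hβ₂, e3, e4⟩ := HX.main (H := F.at' s) hq h hinj hω hω0 (φF s) (hφF s)
      (φP s) (hφP s) h₂
    exact ⟨α₁, hα₁, α₂, hα₂, β₁, hβ₁, β₂, hβ₂, e1, e3, e2, e4⟩

end HXF

end Vale.Agent.P216.D239
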