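import Vale.Agent.P216.D239.VFin
import Vale.Agent.P216.V754.HInd
import Vale.Agent.P216.V893.GerP
import Vale.Agent.P216.H977V.Plain
import Vale.Agent.P216.V670.One
import Vale.Agent.P216.H923G.Loss

/-!
# P216-V: the independence in the based loops
-/

set_option linter.unusedSectionVars false
set_option linter.unusedVariables false

open Set Bundle Manifold BoundedContinuousFunction
open scoped ContDiff

namespace Vale.Agent.P216.D239

open Vale.Agent.P216.V609 Vale.Agent.P216.H285V Vale.Agent.P216.H929V Vale.Agent.P216.V893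
open Vale.Agent.P216.V706 (Two)
open Vale.Agent.P216.V994 (Pair pairOf plain)
open Vale.Agent.P216.V775
open Vale.Agent.P216.V773 (sc gm gmH)

noncomputable section

/-- the germs of the plain system after the scale `i₀` -/
def gs {N : Type} [MetricSpace N] (b : N) (i₀ : Sc) : V754.GS ((plain b).sub i₀) where
  X := (vs N b).X
  Xb := (vs N b).Xb
  ε := (vs N b).ε
  ε_van := (vs N b).ε_van
  PF := (vs N b).PF
  Om := (vs N b).Om
  oPF := (vs N b).oPF
  oPF_ρ := (vs N b).oPF_ρ
  g i := gB b i.1
  γ t i := agP b t i.1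
  γO t i := (gerP b).γO t i.1
  colB := V921.ccol_sub (colP b) i₀
  col t := V921.isCol_sub (V670.IsCol.to754 ((gerP b).col t) (V670.Ger.rr (S := plain b) t)) i₀
  colO t := V921.isCol_sub (V670.IsCol.to754 ((gerP b).colO t) ((gerP b).σσ t)) i₀
  gr_γ t i w := (gerP b).gr_γ t i.1 w
  σ_γ s t h i j hij w := (gerP b).σ_γ s t h i.1 j.1 hij w

end

/-- **The independence in the based loops.** -/
theorem hInd {N : Type} [MetricSpace N] (b : N) {t₀ l : ℝ} (hL : (plain b).Loss t₀ l) :
    HInd N b := by
  intro f₂ T₁ ε hε P T₀ ê hP h h' om hω hω0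
  have hc : ∀ (i : V670.Up (Sc.mk ε hε)) a, ((gs b (Sc.mk ε hε)).g i).f
      ((((plain b).subCone (Sc.mk ε hε)).u i).f a) = (gmH (vr (univ : Set N)) hε).f a :=
    fun i a => (colP b).comp (Sc.mk ε hε) i.1 i.2 a
  exact V754.GS.hInd' (gs b (Sc.mk ε hε)) (H977V.zps_plain_sub b (Sc.mk ε hε))
    ((plain b).subCone (Sc.mk ε hε)) (gmH (vr (univ : Set N)) hε) hc h
    (hL.sub _) (T₀ := T₁) hP (fun t => V670.one_ne_Om b t) hω0

/-- **The goal**: closed simply connected manifolds whose rational cohomology ring is not generated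
by one class. -/
theorem vGoal : H215.VGoal :=
  vGoal_of fun N _ _ _ _ hρ hU b => by
    obtain ⟨c, hc⟩ := H923G.loss_plain hρ hU b
    exact hInd b (hc 1 one_pos)

end Vale.Agent.P216.D239
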