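import Vale.Agent.P216.V609.NTwo

/-!
# P216-V: the abstract end of the proof

`S` free loops, `P` paths with a fixed end point, `O` based loops (all over the base, with the
adjoined generators). `vtop`: linear growth, the classes `α_i`, `β_i` at every level, and the
independence on the based loops are contradictory.
-/

universe w v u u' u''

namespace Vale.Agent.P216.D239

open V609

/-- **The abstract end of the proof.** -/
theorem vtop {k : Type w} [Field k] (S : NSys.{w, v, u} k) (hS : S.LinBd)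
    {P : ℝ → Type u'} [∀ t, Ring (P t)] [∀ t, Algebra k (P t)] (CP : ∀ t, NDga k (P t))
    {O : ℝ → Type u''} [∀ t, Ring (O t)] [∀ t, Algebra k (O t)] (CO : ∀ t, NDga k (O t))
    (ρP : ∀ s t, t ≤ s → NDga.Hom (CP s) (CP t)) (ρO : ∀ s t, t ≤ s → NDga.Hom (CO s) (CO t))
    (rF : ∀ t, NDga.Hom (S.C t) (CO t)) (rP : ∀ t, NDga.Hom (CP t) (CO t))
    (hF : ∀ s t h a, (rF t).f ((S.ρ s t h).f a) = (ρO s t h).f ((rF s).f a))
    (hP : ∀ s t h a, (rP t).f ((ρP s t h).f a) = (ρO s t h).f ((rP s).f a))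
    (y₁ y₂ : ∀ t, P t) (hy₁ : ∀ s t h, (ρP s t h).f (y₁ s) = y₁ t)
    (hy₂ : ∀ s t h, (ρP s t h).f (y₂ s) = y₂ t) {p q : ℕ}
    (hA : ∀ s : ℝ, 0 < s → ∃ α₁ ∈ (S.C s).Z p, ∃ α₂ ∈ (S.C s).Z q, ∃ β₁ ∈ (CP s).deg p,
      ∃ β₂ ∈ (CP s).deg q, (CP s).d β₁ = y₁ s ∧ (CP s).d β₂ = y₂ s ∧
        (rF s).f α₁ = (rP s).f β₁ ∧ (rF s).f α₂ = (rP s).f β₂)
    {b : ℝ} (hInd : ∀ (N : ℕ) (t : ℝ), b * (N + 1) ≤ t → ∀ β₁ ∈ (CP t).deg p,
      ∀ β₂ ∈ (CP t).deg q, (CP t).d β₁ = y₁ t → (CP t).d β₂ = y₂ t →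
        NIndep (CO t) ((rP t).f β₁) ((rP t).f β₂) p q N) : False := by
  have hb : (0 : ℝ) < max b 1 := lt_of_lt_of_le one_pos (le_max_right _ _)
  refine S.false_of_indep hS (p := p) (q := q) hb fun c hc N => ?_
  have hN : (0 : ℝ) < (N : ℝ) + 1 := by positivity
  refine ⟨max b 1 * (N + 1), by positivity, le_rfl, ?_⟩
  generalize ht : max b 1 * ((N : ℝ) + 1) = t
  have ht0 : 0 < t := by rw [← ht]; positivity
  obtain ⟨α₁, hα₁, α₂, hα₂, β₁, hβ₁, β₂, hβ₂, h1, h2, h3, h4⟩ := hA (t + c) (by linarith)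
  refine ⟨α₁, hα₁, α₂, hα₂, ?_⟩
  refine NIndep.of_hom (rF t) ?_
  rw [hF, hF, h3, h4, ← hP, ← hP]
  refine hInd N t ?_ _ ((ρP _ _ _).deg hβ₁) _ ((ρP _ _ _).deg hβ₂) ?_ ?_
  · rw [← ht]
    exact mul_le_mul_of_nonneg_right (le_max_left _ _) hN.le
  · rw [← (ρP _ _ _).d, h1, hy₁]
  · rw [← (ρP _ _ _).d, h2, hy₂]

end Vale.Agent.P216.D239
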