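import Vale.Agent.P216.D239.Cs

/-!
# P216-D: the vanishing of `E_2` from the vanishing of the cohomology of the nerve or of the fibre
-/

set_option linter.unusedSectionVars false

open Set Finsupp

namespace Vale.Agent.P216.D239

open Vale.Agent.P216.Sl Vale.Agent.P216.PS Vale.Agent.P216.H140 Vale.Agent.P216.AS
open Vale.Agent.P216.H901

section fin

variable {k : Type} [Field k] {V E : Type} [PseudoMetricSpace E] {C : Cov V E} {p q : ℕ}
  {F : List V → List E → k}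

theorem fin_unif [Finite V] {p : ℕ} {P : List V → ℝ → Prop}
    (hP : ∀ σ ε ε', ε' ≤ ε → P σ ε → P σ ε')
    (h : ∀ σ : List V, σ.length = p → ∃ ε > 0, P σ ε) :
    ∃ ε > 0, ∀ σ : List V, σ.length = p → P σ ε := by
  classical
  have hf : Finite {σ : List V // σ.length = p} :=
    inferInstanceAs (Finite (List.Vector V p))
  choose! f hf0 hfP using h
  cases isEmpty_or_nonempty {σ : List V // σ.length = p} with
  | inl he => exact ⟨1, one_pos, fun σ hσ => (he.false ⟨σ, hσ⟩).elim⟩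
  | inr hne =>
    obtain ⟨σ₀, h0⟩ := Finite.exists_min fun σ : {σ : List V // σ.length = p} => f σ.1
    exact ⟨f σ₀.1, hf0 σ₀.1 σ₀.2, fun σ hσ => hP σ _ _ (h0 ⟨σ, hσ⟩) (hfP σ hσ)⟩

theorem van_of_forall [Finite V] (h : ∀ σ, C.G σ → σ.length = p → ∃ ε > 0, ∀ l, l.length = q →
    SmL (C.S σ) ε l → F σ l = 0) : Van C p q F := by
  obtain ⟨ε, hε, h'⟩ := fin_unif (V := V) (p := p)
    (P := fun σ ε => C.G σ → ∀ l : List E, l.length = q → SmL (C.S σ) ε l → F σ l = 0)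
    (fun σ ε ε' hε h hσ l hl hs => h hσ l hl (hs.mono subset_rfl hε))
    (fun σ hσ => by
      by_cases hG : C.G σ
      · obtain ⟨ε, hε, h⟩ := h σ hG hσ
        exact ⟨ε, hε, fun _ => h⟩
      · exact ⟨1, one_pos, fun h => absurd h hG⟩)
  exact ⟨ε, hε, fun σ hσ hp => h' σ hp hσ⟩

theorem rel_of_forall [Finite V] (h : ∀ σ, C.G σ → σ.length = p → VanL (C.S σ ∩ C.A) q (F σ)) :
    Rel C p q F := by
  obtain ⟨ε, hε, h'⟩ := fin_unif (V := V) (p := p)
    (P := fun σ ε => C.G σ → ∀ l : List E, l.length = q → SmL (C.S σ ∩ C.A) ε l → F σ l = 0)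
    (fun σ ε ε' hε h hσ l hl hs => h hσ l hl (hs.mono subset_rfl hε))
    (fun σ hσ => by
      by_cases hG : C.G σ
      · obtain ⟨ε, hε, h⟩ := h σ hG hσ
        exact ⟨ε, hε, fun _ => h⟩
      · exact ⟨1, one_pos, fun h => absurd h hG⟩)
  exact ⟨ε, hε, fun σ hσ hp => h' σ hp hσ⟩

/-- the rows of a cocycle -/
theorem cocR_of {b : ℕ} (hF : Rel C p (b + 1) F) (hdv : Van C p (b + 2) (dv F)) {σ : List V}
    (hσ : C.G σ) (hp : σ.length = p) : CocR (C.S σ) (C.S σ ∩ C.A) b (F σ) := by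
  obtain ⟨ε, hε, h⟩ := hF
  obtain ⟨ε', hε', h'⟩ := hdv
  refine ⟨⟨ε', hε', fun l hl hs => ?_⟩, ⟨ε, hε, fun l hl hs => h σ hσ hp l hl hs⟩⟩
  have := h' σ hσ hp l hl hs
  rwa [dv_pos (by omega)] at this

/-- `dv F₁` is exact -/
theorem exR_dv {b : ℕ} {F₁ : List V → List E → k} (hF₁ : Rel C p b F₁)
    (hE : Van C p (b + 1) fun σ l => F σ l - dv F₁ σ l) {σ : List V}
    (hσ : C.G σ) (hp : σ.length = p) : ExR (C.S σ) (C.S σ ∩ C.A) b (F σ) := by
  obtain ⟨ε', hε', h'⟩ := hE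
  rcases Nat.eq_zero_or_pos b with rfl | hb
  · refine ⟨fun _ => 0, fun _ _ => rfl, ⟨1, one_pos, fun _ _ _ => rfl⟩, ε', hε', fun l hl hs => ?_⟩
    have := h' σ hσ hp l hl hs
    rw [PS.dl_zero_fun]
    simpa only [dv_neg (show l.length ≤ 1 by omega), sub_zero] using this
  · obtain ⟨ε, hε, h⟩ := hF₁
    refine ⟨F₁ σ, fun h0 => by omega, ⟨ε, hε, fun l hl hs => h σ hσ hp l hl hs⟩, ε', hε',
      fun l hl hs => ?_⟩
    have h1 : F σ l - dv F₁ σ l = 0 := h' σ hσ hp l hl hs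
    rwa [dv_pos (by omega), sub_eq_zero] at h1

end fin

section z2

variable {k : Type} [Field k] {V E : Type} [PseudoMetricSpace E] [Finite V]
  {C : ℝ → Cov V E} {W : ℕ → PM k} {c : ℝ} (K : CS k C W c)

include K

/-- The symbol of a row. -/
noncomputable def CS.sym (F : List V → List E → k) (b : ℕ) (r t : ℝ) (σ : List V) : (W b).V r :=
  K.i b σ r t (cl ((C t).S σ) ((C t).S σ ∩ (C t).A) b (F σ))

/-- The symbol is a cocycle. -/
theorem CS.dm_sym {b p : ℕ} (hp : 1 ≤ p) {r t : ℝ} (hr : 0 < r) (hrt : r + c ≤ t)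
    {F F₁ : List V → List E → k} (hF : Rel (C t) p (b + 1) F) (hF₁ : Rel (C t) (p + 1) b F₁)
    (hdv : Van (C t) p (b + 2) (dv F)) (hdh : Van (C t) (p + 1) (b + 1) fun σ l =>
      dh F σ l - dv F₁ σ l) {τ : List V} (hτ : (C t).G τ) (hτp : τ.length = p + 1) :
    dm (K.sym F b r t) τ = 0 := by
  have h0 : ∀ τ' : List V, τ'.length + 1 = τ.length → τ'.Sublist τ →
      CocR ((C t).S τ) ((C t).S τ ∩ (C t).A) b (F τ') := fun τ' h1 h2 =>
    (cocR_of hF hdv ((C t).G_sub hτ h2) (by omega)).mono ((C t).S_sub h2)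
      (inter_subset_inter ((C t).S_sub h2) subset_rfl)
  obtain ⟨h1, h2⟩ := cl_dm τ h0
  have e1 : dm (K.sym F b r t) τ =
      dm (fun τ' => K.i b τ r t (cl ((C t).S τ) ((C t).S τ ∩ (C t).A) b (F τ'))) τ := by
    refine dm_congr fun τ' a1 a2 => ?_
    rw [CS.sym, ← K.i_res b τ τ' r t hr hrt (by rintro rfl; simp at a1; omega) hτ a2,
      res_cl _ _ (cocR_of hF hdv ((C t).G_sub hτ a2) (by omega))]
  have e2 := dm_map (K.i b τ r t).toAddMonoidHom
    (fun τ' => cl ((C t).S τ) ((C t).S τ ∩ (C t).A) b (F τ')) τ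
  rw [e1]
  refine e2.symm.trans ?_
  rw [← h2, (cl_zero_iff h1).2, map_zero]
  have h3 := exR_dv (F := dh F) hF₁ hdh hτ hτp
  obtain ⟨g, g1, g2, ε, hε, g3⟩ := h3
  refine ⟨g, g1, g2, ε, hε, fun l hl hs => ?_⟩
  rw [← g3 l hl hs, dh_pos (by omega)]

/-- **From symbols to cochains**: if the symbol of `F` is `dm w` (for `p = 1`: zero), then `F` is
`dv u + dh w'` at the level `s`. -/
theorem CS.of_sym {b p : ℕ} (hp : 1 ≤ p) {s r t : ℝ} (hs : 0 < s) (hsr : s + c ≤ r)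
    (hrt : r + c ≤ t) {F : List V → List E → k} (hF : Rel (C t) p (b + 1) F)
    (hdv : Van (C t) p (b + 2) (dv F)) (w : List V → (W b).V r)
    (hw : ∀ σ, (C t).G σ → σ.length = p → K.sym F b r t σ = if p = 1 then 0 else dm w σ) :
    ∃ u w' : List V → List E → k, Rel (C s) p b u ∧ Rel (C s) (p - 1) (b + 1) w' ∧
      Van (C s) (p - 1) (b + 2) (dv w') ∧
      (∀ σ', (C s).G σ' → σ'.length = p - 1 → cl ((C s).S σ') ((C s).S σ' ∩ (C s).A) b (w' σ') =
        K.p b σ' s r (w σ')) ∧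
      Van (C s) p (b + 1) fun σ l => F σ l - (dv u σ l + dh w' σ l) := by
  have hc := K.hc
  have hst : s ≤ t := by linarith
  have hr : 0 < r := by linarith
  have hle := K.le s t hs hst
  choose f hf1 hf2 using fun σ' : List V => exists_cl (K.p b σ' s r (w σ'))
  have hcoc : ∀ σ', (C s).G σ' → σ'.length = p - 1 →
      CocR ((C s).S σ') ((C s).S σ' ∩ (C s).A) b (f σ') := fun σ' _ _ => hf1 σ'
  have key : ∀ σ, (C s).G σ → σ.length = p → ExR ((C s).S σ) ((C s).S σ ∩ (C s).A) b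
      fun l => F σ l - (if p = 1 then 0 else dl (fun σ' => f σ' l) σ) := by
    intro σ hσ hσp
    have hσt := K.G s t σ hσ
    have hσ0 : σ ≠ [] := by rintro rfl; simp at hσp; omega
    have c1 := cocR_of hF hdv hσt hσp
    have c2 := c1.mono (hle.S σ) (inter_subset_inter (hle.S σ) hle.A)
    have e0 := K.pi b σ s r r t hs hsr hr le_rfl hrt hst hσ0 hσ
      (cl ((C t).S σ) ((C t).S σ ∩ (C t).A) b (F σ))
    rw [(W b).ρ_refl, res_cl _ _ c1] at e0
    by_cases h1 : p = 1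
    · simp only [if_pos h1, sub_zero]
      rw [← cl_zero_iff c2, ← e0]
      have := hw σ hσt hσp
      rw [if_pos h1, CS.sym] at this
      rw [this, map_zero]
    · simp only [if_neg h1]
      have h0 : ∀ τ' : List V, τ'.length + 1 = σ.length → τ'.Sublist σ →
          CocR ((C s).S σ) ((C s).S σ ∩ (C s).A) b (f τ') := fun τ' _ a2 =>
        (hf1 τ').mono ((C s).S_sub a2) (inter_subset_inter ((C s).S_sub a2) subset_rfl)
      obtain ⟨d1, d2⟩ := cl_dm σ h0
      rw [← cl_zero_iff (c2.sub d1), cl_sub c2 d1, d2, ← e0, sub_eq_zero]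
      have := hw σ hσt hσp
      rw [if_neg h1, CS.sym] at this
      rw [this]
      have e2 := dm_map (K.p b σ s r).toAddMonoidHom w σ
      refine e2.trans (dm_congr fun τ' a1 a2 => ?_)
      rw [← res_cl ((C s).S_sub a2) (inter_subset_inter ((C s).S_sub a2) subset_rfl) (hf1 τ'),
        hf2]
      exact (K.p_res b σ τ' s r hs hsr (by rintro rfl; simp at a1; omega) hσ a2 _).symm
  choose! u hu1 hu2 hu3 using key
  refine ⟨u, f, ?_, ?_, ?_, fun σ' _ _ => hf2 σ', ?_⟩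
  · exact rel_of_forall fun σ hσ hσp => hu2 σ hσ hσp
  · exact rel_of_forall fun σ hσ hσp => (hf1 σ).van
  · refine van_of_forall fun σ hσ hσp => ?_
    obtain ⟨ε, hε, h⟩ := (hf1 σ).coc
    exact ⟨ε, hε, fun l hl hs => by rw [dv_pos (by omega)]; exact h l hl hs⟩
  · refine van_of_forall fun σ hσ hσp => ?_
    obtain ⟨ε, hε, h⟩ := hu3 σ hσ hσp
    refine ⟨ε, hε, fun l hl hs => ?_⟩
    have h1 := h l hl hs
    have h2 : dv u σ l = dl (u σ) l := by
      rcases Nat.eq_zero_or_pos b with rfl | hb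
      · rw [dv_neg (by omega), show u σ = fun _ => 0 from funext (hu1 σ hσ hσp rfl),
          PS.dl_zero_fun]
      · exact dv_pos (by omega) σ
    have h3 : dh f σ l = if p = 1 then 0 else dl (fun σ' => f σ' l) σ := by
      split_ifs with h4
      · exact dh_neg (by omega) l
      · exact dh_pos (by omega) l
    rw [h2, h3, ← h1]
    ring

/-- **E_2 is killed by the cohomology of the nerve.** -/
theorem CS.z2_nerve {p q : ℕ} (hp : 2 ≤ p) (hq : 1 ≤ q) {s t : ℝ} (hs : 0 < s)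
    (hst : s + c + c ≤ t) (hN : NZ k (C t).G p) : Z2 k (C t) (C s) p q := by
  obtain ⟨b, rfl⟩ : ∃ b, q = b + 1 := ⟨q - 1, by omega⟩
  intro F F₁ hF hF₁ hdv hdh
  rw [Nat.add_sub_cancel] at hF₁
  have hc := K.hc
  obtain ⟨w, hw⟩ := hN ((W b).V (s + c)) (K.sym F b (s + c) t) fun σ hσ hσp =>
    K.dm_sym (by omega) (by linarith) hst hF hF₁ hdv hdh hσ hσp
  obtain ⟨u, w', h1, h2, h3, -, h4⟩ := K.of_sym (by omega) hs le_rfl hst hF hdv w
    fun σ hσ hσp => by rw [if_neg (by omega), hw σ hσ hσp]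
  exact ⟨u, w', h1, h2, h3, h4⟩

/-- **E_2 is killed by the vanishing of the fibre.** -/
theorem CS.z2_fibre {p q : ℕ} (hp : 1 ≤ p) (hq : 1 ≤ q) {B s t : ℝ} (hB : 0 ≤ B) (hs : 0 < s)
    (hst : s + c + B + c ≤ t) (hE : (W (q - 1)).Eph B) : Z2 k (C t) (C s) p q := by
  obtain ⟨b, rfl⟩ : ∃ b, q = b + 1 := ⟨q - 1, by omega⟩
  intro F F₁ hF hF₁ hdv hdh
  rw [Nat.add_sub_cancel] at hE
  have hc := K.hc
  have hst' : s ≤ t := by linarith
  have hle := K.le s t hs hst'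
  have key : ∀ σ, (C s).G σ → σ.length = p →
      ExR ((C s).S σ) ((C s).S σ ∩ (C s).A) b (F σ) := by
    intro σ hσ hσp
    have hσt := K.G s t σ hσ
    have hσ0 : σ ≠ [] := by rintro rfl; simp at hσp; omega
    have c1 := cocR_of hF hdv hσt hσp
    have c2 := c1.mono (hle.S σ) (inter_subset_inter (hle.S σ) hle.A)
    have e0 := K.pi b σ s (s + c) (s + c + B) t hs le_rfl (by linarith) (by linarith) hst hst' hσ0
      hσ (cl ((C t).S σ) ((C t).S σ ∩ (C t).A) b (F σ))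
    rw [hE _ _ _ _ le_rfl, map_zero, res_cl _ _ c1] at e0
    exact (cl_zero_iff c2).1 e0.symm
  choose! u hu1 hu2 hu3 using key
  refine ⟨u, fun _ _ => 0, rel_of_forall hu2, rel_zero, van_zero.dv, ?_⟩
  refine van_of_forall fun σ hσ hσp => ?_
  obtain ⟨ε, hε, h⟩ := hu3 σ hσ hσp
  refine ⟨ε, hε, fun l hl hs => ?_⟩
  have h1 := h l hl hs
  have h2 : dv u σ l = dl (u σ) l := by
    rcases Nat.eq_zero_or_pos b with rfl | hb
    · rw [dv_neg (by omega), show u σ = fun _ => 0 from funext (hu1 σ hσ hσp rfl),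
        PS.dl_zero_fun]
    · exact dv_pos (by omega) σ
  have h3 : dh (fun (_ : List V) (_ : List E) => (0 : k)) σ l = 0 := by
    by_cases h : σ.length ≤ 1
    · exact dh_neg h l
    · rw [dh_pos h, PS.dl_zero_fun]
  rw [h2, h3, ← h1]
  ring

end z2

end Vale.Agent.P216.D239
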